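import Mathlib.FieldTheory.Finite.Basic

/-!
# P183K, defining characteristic: Steinberg's theorem for `SL₂` over a finite field (helper2)

If `x, y : F → G` are additive and satisfy Steinberg's relation `w(t) x(s) w(t)⁻¹ = y(-s/t²)`, where
`w(t) = x(t) y(-1/t) x(t)`, and `F` is finite, then `h(t) = w(t) w(-1)` is multiplicative.
-/

set_option autoImplicit false
set_option linter.all false

namespace Vale.Agent.P183K.Def

universe u v

section
variable {F : Type u} [Field F] {G : Type v} [Group G]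

/-- `w(t) = x(t) y(-1/t) x(t)` -/
def stW (x y : F → G) (t : F) : G := x t * y (-t⁻¹) * x t

/-- `h(t) = w(t) w(-1)` -/
def stH (x y : F → G) (t : F) : G := stW x y t * stW x y (-1)

/-- Steinberg's relations for `A₁` -/
structure St (x y : F → G) : Prop where
  xadd : ∀ a b, x (a + b) = x a * x b
  yadd : ∀ a b, y (a + b) = y a * y b
  wx : ∀ t, t ≠ 0 → ∀ s, stW x y t * x s * (stW x y t)⁻¹ = y (-(t⁻¹ ^ 2 * s))

namespace St
variable {x y : F → G} (h : St x y)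
include h

lemma x_zero : x 0 = 1 := by
  have := h.xadd 0 0
  rw [add_zero] at this
  exact left_eq_mul.1 this

lemma y_zero : y 0 = 1 := by
  have := h.yadd 0 0
  rw [add_zero] at this
  exact left_eq_mul.1 this

lemma x_neg (a : F) : x (-a) = (x a)⁻¹ := by
  rw [eq_inv_iff_mul_eq_one, ← h.xadd, neg_add_cancel, h.x_zero]

lemma y_neg (a : F) : y (-a) = (y a)⁻¹ := by
  rw [eq_inv_iff_mul_eq_one, ← h.yadd, neg_add_cancel, h.y_zero]

lemma w_neg (t : F) : stW x y (-t) = (stW x y t)⁻¹ := by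
  unfold stW
  rw [mul_inv_rev, mul_inv_rev, ← h.x_neg, ← h.y_neg, inv_neg, mul_assoc]

lemma wy {t : F} (ht : t ≠ 0) (s : F) :
    stW x y t * y s * (stW x y t)⁻¹ = x (-(t ^ 2 * s)) := by
  have h1 := h.wx (-t) (neg_ne_zero.2 ht) (-(t ^ 2 * s))
  have h2 : -((-t)⁻¹ ^ 2 * -(t ^ 2 * s)) = s := by field_simp
  rw [h2, h.w_neg] at h1
  rw [← h1]
  group

lemma braid {t : F} (ht : t ≠ 0) : stW x y t = y (-t⁻¹) * x t * y (-t⁻¹) := by
  have h1 := h.wx t ht t
  have h2 := h.wy ht (-t⁻¹)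
  have e1 : -(t⁻¹ ^ 2 * t) = -t⁻¹ := by field_simp
  have e2 : -(t ^ 2 * -t⁻¹) = t := by field_simp
  rw [e1] at h1
  rw [e2] at h2
  calc stW x y t = stW x y t * (x t * y (-t⁻¹) * x t) * (stW x y t)⁻¹ := by
        show _ = stW x y t * stW x y t * _
        group
    _ = (stW x y t * x t * (stW x y t)⁻¹) * (stW x y t * y (-t⁻¹) * (stW x y t)⁻¹) *
          (stW x y t * x t * (stW x y t)⁻¹) := by group
    _ = _ := by rw [h1, h2]

lemma h_one : stH x y 1 = 1 := by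
  unfold stH
  rw [h.w_neg, mul_inv_cancel]

lemma hx {t : F} (ht : t ≠ 0) (s : F) : stH x y t * x s * (stH x y t)⁻¹ = x (t ^ 2 * s) := by
  have h1 := h.wx (-1) (neg_ne_zero.2 one_ne_zero) s
  have h2 := h.wy ht (-((-1 : F)⁻¹ ^ 2 * s))
  have e : -(t ^ 2 * -((-1 : F)⁻¹ ^ 2 * s)) = t ^ 2 * s := by field_simp
  rw [e] at h2
  rw [← h2, ← h1]
  unfold stH
  group

lemma hy {t : F} (ht : t ≠ 0) (s : F) : stH x y t * y s * (stH x y t)⁻¹ = y (t⁻¹ ^ 2 * s) := by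
  have h1 := h.wy (neg_ne_zero.2 (one_ne_zero (α := F))) s
  have h2 := h.wx t ht (-((-1 : F) ^ 2 * s))
  have e : -(t⁻¹ ^ 2 * -((-1 : F) ^ 2 * s)) = t⁻¹ ^ 2 * s := by ring
  rw [e] at h2
  rw [← h2, ← h1]
  unfold stH
  group

omit h in
/-- conjugation by a diagonal automorphism -/
lemma conj_w {τ : G} {a : F} (ha : a ≠ 0) (h1 : ∀ s, τ * x s * τ⁻¹ = x (a * s))
    (h2 : ∀ s, τ * y s * τ⁻¹ = y (a⁻¹ * s)) (t : F) :
    τ * stW x y t * τ⁻¹ = stW x y (a * t) := by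
  unfold stW
  have e : -(a * t)⁻¹ = a⁻¹ * -t⁻¹ := by rw [mul_inv]; ring
  rw [e, ← h1, ← h2]
  group

lemma conj_h {τ : G} {a : F} (ha : a ≠ 0) (h1 : ∀ s, τ * x s * τ⁻¹ = x (a * s))
    (h2 : ∀ s, τ * y s * τ⁻¹ = y (a⁻¹ * s)) (t : F) :
    τ * stH x y t * τ⁻¹ = stH x y (a * t) * (stH x y a)⁻¹ := by
  have e1 := conj_w ha h1 h2 t
  have e2 := conj_w ha h1 h2 (-1)
  rw [mul_neg, mul_one, h.w_neg a] at e2
  unfold stH
  calc τ * (stW x y t * stW x y (-1)) * τ⁻¹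
      = (τ * stW x y t * τ⁻¹) * (τ * stW x y (-1) * τ⁻¹) := by group
    _ = _ := by rw [e1, e2]; group

lemma hh {t : F} (ht : t ≠ 0) (u : F) :
    stH x y t * stH x y u * (stH x y t)⁻¹ = stH x y (t ^ 2 * u) * (stH x y (t ^ 2))⁻¹ :=
  h.conj_h (pow_ne_zero 2 ht) (h.hx ht) (fun s => by rw [h.hy ht, inv_pow]) u

omit h in
lemma comm_w {d : G} (h1 : ∀ s, d * x s * d⁻¹ = x s) (h2 : ∀ s, d * y s * d⁻¹ = y s) (t : F) :
    Commute d (stW x y t) := by
  have := conj_w (x := x) (y := y) (τ := d) one_ne_zero (fun s => by rw [one_mul, h1])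
    (fun s => by rw [inv_one, one_mul, h2]) t
  rw [one_mul] at this
  exact mul_inv_eq_iff_eq_mul.1 this

omit h in
lemma comm_h {d : G} (h1 : ∀ s, d * x s * d⁻¹ = x s) (h2 : ∀ s, d * y s * d⁻¹ = y s) (t : F) :
    Commute d (stH x y t) := (comm_w h1 h2 t).mul_right (comm_w h1 h2 (-1))

lemma pow_x {g : F} (hg : g ≠ 0) (k : ℕ) (s : F) :
    stH x y g ^ k * x s * (stH x y g ^ k)⁻¹ = x ((g ^ k) ^ 2 * s) := by
  induction k with
  | zero => simp
  | succ k ih =>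
    have := h.hx hg ((g ^ k) ^ 2 * s)
    rw [← ih] at this
    rw [pow_succ', show (g ^ (k + 1)) ^ 2 * s = g ^ 2 * ((g ^ k) ^ 2 * s) by ring, ← this]
    group

lemma pow_y {g : F} (hg : g ≠ 0) (k : ℕ) (s : F) :
    stH x y g ^ k * y s * (stH x y g ^ k)⁻¹ = y ((g ^ k)⁻¹ ^ 2 * s) := by
  induction k with
  | zero => simp
  | succ k ih =>
    have := h.hy hg ((g ^ k)⁻¹ ^ 2 * s)
    rw [← ih] at this
    rw [pow_succ', show (g ^ (k + 1))⁻¹ ^ 2 * s = g⁻¹ ^ 2 * ((g ^ k)⁻¹ ^ 2 * s) by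
      rw [pow_succ' g k, mul_inv]; ring, ← this]
    group

lemma comm_pow {g : F} (hg : g ≠ 0) (k : ℕ) (t : F) :
    Commute ((stH x y g ^ k)⁻¹ * stH x y (g ^ k)) (stH x y t) := by
  have hk := pow_ne_zero k hg
  refine comm_h (fun s => ?_) (fun s => ?_) t
  · have h1 := h.hx hk s
    rw [← h.pow_x hg k s] at h1
    calc _ = (stH x y g ^ k)⁻¹ * (stH x y (g ^ k) * x s * (stH x y (g ^ k))⁻¹) * stH x y g ^ k := by
          group
      _ = _ := by rw [h1]; group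
  · have h1 := h.hy hk s
    rw [← h.pow_y hg k s] at h1
    calc _ = (stH x y g ^ k)⁻¹ * (stH x y (g ^ k) * y s * (stH x y (g ^ k))⁻¹) * stH x y g ^ k := by
          group
      _ = _ := by rw [h1]; group

lemma comm_gen {g : F} (hg : g ≠ 0) (i j : ℕ) : Commute (stH x y (g ^ i)) (stH x y (g ^ j)) := by
  have h1 : Commute (stH x y g) (stH x y (g ^ j)) := by
    have e : stH x y (g ^ j) = stH x y g ^ j * ((stH x y g ^ j)⁻¹ * stH x y (g ^ j)) := by group
    rw [e]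
    exact ((Commute.refl _).pow_right j).mul_right (h.comm_pow hg j g).symm
  have e : stH x y (g ^ i) = stH x y g ^ i * ((stH x y g ^ i)⁻¹ * stH x y (g ^ i)) := by group
  rw [e]
  exact (h1.pow_left i).mul_left (h.comm_pow hg i _)

/-- the three term identity -/
lemma three {a b : F} (ha : a ≠ 0) (hb : b ≠ 0) (hab : a + b ≠ 0) :
    stW x y (b / (a * (a + b))) * stW x y (-a⁻¹) * stW x y (-b⁻¹) = stW x y (-(a + b)⁻¹) := by
  have hy' : ∀ c : F, y c = x c⁻¹ * stW x y (-c⁻¹) * x c⁻¹ := by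
    intro c
    unfold stW
    rw [h.x_neg, inv_neg, neg_neg, inv_inv]
    group
  set e : F := -(a * (a + b) / b) with he
  have he0 : e ≠ 0 := by
    rw [he]
    exact neg_ne_zero.2 (div_ne_zero (mul_ne_zero ha hab) hb)
  have h1 := h.wx (-a⁻¹) (neg_ne_zero.2 (inv_ne_zero ha)) (a⁻¹ + b⁻¹)
  have e1 : -((-a⁻¹)⁻¹ ^ 2 * (a⁻¹ + b⁻¹)) = e := by rw [he]; field_simp; ring
  rw [e1] at h1
  have h2 := h.wx a⁻¹ (inv_ne_zero ha) e⁻¹
  have h3 := h.wy (inv_ne_zero hb) (-(a⁻¹⁻¹ ^ 2 * e⁻¹))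
  have e2 : -e⁻¹ = b / (a * (a + b)) := by rw [he]; field_simp
  have e3 : a⁻¹ + e⁻¹ = (a + b)⁻¹ := by rw [he]; field_simp; ring
  have e4 : -(b⁻¹ ^ 2 * -(a⁻¹⁻¹ ^ 2 * e⁻¹)) + b⁻¹ = (a + b)⁻¹ := by rw [he]; field_simp; ring
  have h4 := h.yadd a b
  rw [hy' (a + b), hy' a, hy' b] at h4
  have h5 : x a⁻¹ * stW x y (-a⁻¹) * x a⁻¹ * (x b⁻¹ * stW x y (-b⁻¹) * x b⁻¹) =
      x (a + b)⁻¹ * (stW x y (-e⁻¹) * stW x y (-a⁻¹) * stW x y (-b⁻¹)) * x (a + b)⁻¹ := by
    calc _ = x a⁻¹ * (stW x y (-a⁻¹) * (x a⁻¹ * x b⁻¹) * (stW x y (-a⁻¹))⁻¹) *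
            stW x y (-a⁻¹) * stW x y (-b⁻¹) * x b⁻¹ := by group
      _ = x a⁻¹ * (x e⁻¹ * stW x y (-e⁻¹) * x e⁻¹) *
            stW x y (-a⁻¹) * stW x y (-b⁻¹) * x b⁻¹ := by rw [← h.xadd, h1, hy' e]
      _ = (x a⁻¹ * x e⁻¹) * (stW x y (-e⁻¹) * stW x y (-a⁻¹) * stW x y (-b⁻¹)) *
            ((stW x y b⁻¹ * (stW x y a⁻¹ * x e⁻¹ * (stW x y a⁻¹)⁻¹) * (stW x y b⁻¹)⁻¹) *
              x b⁻¹) := by rw [h.w_neg a⁻¹, h.w_neg b⁻¹]; group
      _ = _ := by rw [h2, h3, ← h.xadd, ← h.xadd, e3, e4]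
  rw [h5, e2] at h4
  exact (mul_left_cancel (mul_right_cancel h4)).symm

lemma three' {r : F} (hr : r ≠ 0) (hr1 : r - 1 ≠ 0) :
    stH x y ((r - 1)⁻¹ * r⁻¹) * (stH x y (r - 1)⁻¹)⁻¹ = stH x y (-r⁻¹) * (stH x y (-1))⁻¹ := by
  have h1 := h.three hr1 one_ne_zero (by rwa [sub_add_cancel])
  rw [sub_add_cancel, inv_one, one_div, mul_inv, h.w_neg (r - 1)⁻¹] at h1
  unfold stH
  rw [← h1]
  group

variable [Finite F]

/-- the elements `h(t)` commute -/
theorem h_comm {t u : F} (ht : t ≠ 0) (hu : u ≠ 0) : Commute (stH x y t) (stH x y u) := by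
  obtain ⟨g, hg⟩ := IsCyclic.exists_monoid_generator (α := Fˣ)
  obtain ⟨i, hi⟩ := hg (Units.mk0 t ht)
  obtain ⟨j, hj⟩ := hg (Units.mk0 u hu)
  have e1 : t = (g : F) ^ i := by rw [← Units.val_pow_eq_pow_val, show g ^ i = _ from hi]; rfl
  have e2 : u = (g : F) ^ j := by rw [← Units.val_pow_eq_pow_val, show g ^ j = _ from hj]; rfl
  rw [e1, e2]
  exact h.comm_gen g.ne_zero i j

lemma h_sq {t u : F} (ht : t ≠ 0) (hu : u ≠ 0) :
    stH x y (u * t ^ 2) = stH x y u * stH x y (t ^ 2) := by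
  have h1 := h.hh ht u
  rw [(h.h_comm ht hu).eq, mul_inv_cancel_right] at h1
  rw [h1, mul_comm u]
  group

lemma h_nn {g a b : F} (hg : g ≠ 0) (ha : a ≠ 0) (hb : b ≠ 0) :
    stH x y (g * a ^ 2) * stH x y (g * b ^ 2) * stH x y (g ^ 2) =
      stH x y (g * a ^ 2 * (g * b ^ 2)) * (stH x y g * stH x y g) := by
  have e : g * a ^ 2 * (g * b ^ 2) = a ^ 2 * b ^ 2 * g ^ 2 := by ring
  have ha2 := pow_ne_zero 2 ha
  have hb2 := pow_ne_zero 2 hb
  have hg2 := pow_ne_zero 2 hg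
  rw [e, h.h_sq hg (mul_ne_zero ha2 hb2), h.h_sq hb ha2, h.h_sq ha hg, h.h_sq hb hg]
  have c1 := (h.h_comm hg ha2).eq
  have c2 := (h.h_comm hg hb2).eq
  have c3 := (h.h_comm hg hg2).eq
  generalize stH x y g = A at *
  generalize stH x y (a ^ 2) = P at *
  generalize stH x y (b ^ 2) = Q at *
  generalize stH x y (g ^ 2) = R at *
  calc A * P * (A * Q) * R = (A * P) * (A * Q) * R := rfl
    _ = P * (A * Q) * (A * R) := by rw [c1, c2]; simp only [mul_assoc]; rw [← mul_assoc A Q, c2, mul_assoc]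
    _ = P * Q * (A * R) * A := by rw [c2, c3]; simp only [mul_assoc]; rw [← mul_assoc A R, c3, mul_assoc]
    _ = _ := by rw [c3]; simp only [mul_assoc]

/-- **Steinberg's theorem** for `SL₂` over a finite field -/
theorem h_mul {t u : F} (ht : t ≠ 0) (hu : u ≠ 0) :
    stH x y (t * u) = stH x y t * stH x y u := by
  classical
  obtain ⟨g', hg⟩ := IsCyclic.exists_monoid_generator (α := Fˣ)
  set g : F := (g' : F) with hgdef
  have hg0 : g ≠ 0 := g'.ne_zero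
  have hd : ∀ t : F, t ≠ 0 → ∃ a, a ≠ 0 ∧ (t = a ^ 2 ∨ t = g * a ^ 2) := by
    intro t ht
    obtain ⟨i, hi⟩ := hg (Units.mk0 t ht)
    have e1 : t = g ^ i := by rw [hgdef, ← Units.val_pow_eq_pow_val, show g' ^ i = _ from hi]; rfl
    refine ⟨g ^ (i / 2), pow_ne_zero _ hg0, ?_⟩
    rcases Nat.even_or_odd' i with ⟨j, hj | hj⟩
    · left
      rw [e1, hj, show 2 * j / 2 = j by omega]; ring
    · right
      rw [e1, hj, show (2 * j + 1) / 2 = j by omega]; ring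
  have key : stH x y g * stH x y g = stH x y (g ^ 2) := by
    by_cases hsq : ∃ c, g = c ^ 2
    · obtain ⟨c, hc⟩ := hsq
      have hc0 : c ≠ 0 := by rintro rfl; exact hg0 (by rw [hc]; simp)
      have := h.h_sq hc0 hg0
      rw [← hc] at this
      rw [← this, sq]
    · haveI := Fintype.ofFinite F
      have hchar : ringChar F ≠ 2 := fun h2 => by
        obtain ⟨c, hc⟩ := FiniteField.isSquare_of_char_two h2 g
        exact hsq ⟨c, by rw [hc, sq]⟩
      have hodd := FiniteField.odd_card_of_char_ne_two hchar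
      open Polynomial in
      obtain ⟨a, b, hab⟩ := FiniteField.exists_root_sum_quadratic (R := F)
        (f := C g * X ^ 2) (g := C g * X ^ 2 - 1) (by
          rw [degree_C_mul hg0, degree_X_pow]; rfl) (by
          rw [degree_sub_eq_left_of_degree_lt] <;> rw [degree_C_mul hg0, degree_X_pow]
          · rfl
          · rw [degree_one]; decide) hodd
      simp only [Polynomial.eval_mul, Polynomial.eval_C, Polynomial.eval_pow, Polynomial.eval_X,
        Polynomial.eval_sub, Polynomial.eval_one] at hab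
      have hns : ∀ c : F, g * c ^ 2 ≠ 1 := fun c hc => by
        have hc0 : c ≠ 0 := by rintro rfl; simp at hc
        exact hsq ⟨c⁻¹, by field_simp; exact hc⟩
      have ha : a ≠ 0 := by
        rintro rfl
        exact hns b (by linear_combination hab)
      have hb : b ≠ 0 := by
        rintro rfl
        exact hns a (by linear_combination hab)
      have hr : g * a ^ 2 ≠ 0 := mul_ne_zero hg0 (pow_ne_zero 2 ha)
      have er : g * a ^ 2 - 1 = -(g * b ^ 2) := by linear_combination hab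
      have hr1 : g * a ^ 2 - 1 ≠ 0 := by
        rw [er]; exact neg_ne_zero.2 (mul_ne_zero hg0 (pow_ne_zero 2 hb))
      have h3 := h.three' hr hr1
      have fin : ∀ c d : F, c ≠ 0 → d ≠ 0 → stH x y (g * c ^ 2 * (g * d ^ 2)) =
          stH x y (g * c ^ 2) * stH x y (g * d ^ 2) → stH x y g * stH x y g = stH x y (g ^ 2) := by
        intro c d hc hd' e
        have := h.h_nn hg0 hc hd'
        rw [e] at this
        exact (mul_left_cancel this).symm
      have e1 : (g * a ^ 2)⁻¹ = g * ((g * a)⁻¹) ^ 2 := by field_simp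
      have hga := inv_ne_zero (mul_ne_zero hg0 ha)
      obtain ⟨i, hi, hi' | hi'⟩ := hd (-1) (neg_ne_zero.2 one_ne_zero)
      · have e2 : (g * a ^ 2 - 1)⁻¹ = g * (i / (g * b)) ^ 2 := by
          rw [er, div_pow, ← hi']; field_simp
        have e3 : stH x y (-(g * a ^ 2)⁻¹) = stH x y (g * a ^ 2)⁻¹ * stH x y (-1) := by
          rw [hi', ← h.h_sq hi (inv_ne_zero hr), ← hi', mul_neg, mul_one]
        rw [e3, mul_inv_cancel_right, mul_inv_eq_iff_eq_mul,
          (h.h_comm (inv_ne_zero hr) (inv_ne_zero hr1)).eq, e1, e2] at h3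
        exact fin _ _ (div_ne_zero hi (mul_ne_zero hg0 hb)) hga h3
      · have e2 : (g * a ^ 2 - 1)⁻¹ = (i / b) ^ 2 := by
          rw [er, div_pow, show -(g * b ^ 2) = -1 * (g * b ^ 2) by ring, mul_inv, inv_neg,
            inv_one, hi']
          field_simp
        rw [e2, mul_comm, h.h_sq (div_ne_zero hi hb) (inv_ne_zero hr), mul_inv_cancel_right,
          eq_mul_inv_iff_mul_eq, show -(g * a ^ 2)⁻¹ = (g * a ^ 2)⁻¹ * -1 by ring, e1, hi'] at h3
        exact fin _ _ hga hi h3.symm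
  obtain ⟨a, ha, ha' | ha'⟩ := hd t ht
  · rw [ha', mul_comm, h.h_sq ha hu, (h.h_comm hu (pow_ne_zero 2 ha)).eq]
  · obtain ⟨b, hb, hb' | hb'⟩ := hd u hu
    · rw [hb', h.h_sq hb ht]
    · have := h.h_nn hg0 ha hb
      rw [key] at this
      rw [ha', hb', mul_right_cancel this]

/-- diagonal automorphisms centralise the torus -/
theorem tau_comm {τ : G} {a : F} (ha : a ≠ 0) (h1 : ∀ s, τ * x s * τ⁻¹ = x (a * s))
    (h2 : ∀ s, τ * y s * τ⁻¹ = y (a⁻¹ * s)) {t : F} (ht : t ≠ 0) : Commute τ (stH x y t) := by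
  have := h.conj_h ha h1 h2 t
  rw [mul_comm a, h.h_mul ht ha, mul_inv_cancel_right] at this
  exact mul_inv_eq_iff_eq_mul.1 this

lemma h_inv {t : F} (ht : t ≠ 0) : stH x y t⁻¹ = (stH x y t)⁻¹ := by
  rw [eq_inv_iff_mul_eq_one, ← h.h_mul (inv_ne_zero ht) ht, inv_mul_cancel₀ ht, h.h_one]

end St

end

end Vale.Agent.P183K.Def
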