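import Mathlib.GroupTheory.Sylow
import Vale.Agent.P240.H195.Defs
import Vale.Agent.P183K.Def.Stein

/-!
# P183K, defining characteristic: central `p'`-extensions (helper2)

A split BN-pair of characteristic `p` lifts to a central extension whose kernel has no element of
order `p`; `p`-elements have unique lifts; Steinberg's relations lift.
-/

set_option autoImplicit false
set_option linter.all false

namespace Vale.Agent.P183K.Def

open Subgroup Vale.Agent.P240.H195

universe u v w

section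
variable {E : Type u} [Group E] {G : Type v} [Group G]

/-- `e` is a `p`-element -/
def IsP (p : ℕ) (e : E) : Prop := ∃ k : ℕ, e ^ p ^ k = 1

lemma IsP.one (p : ℕ) : IsP p (1 : E) := ⟨0, one_pow _⟩

lemma IsP.inv {p : ℕ} {e : E} (h : IsP p e) : IsP p e⁻¹ := by
  obtain ⟨k, hk⟩ := h
  exact ⟨k, by rw [inv_pow, hk, inv_one]⟩

lemma IsP.conj {p : ℕ} {e : E} (h : IsP p e) (g : E) : IsP p (g * e * g⁻¹) := by
  obtain ⟨k, hk⟩ := h
  exact ⟨k, by rw [conj_pow, hk, mul_one, mul_inv_cancel]⟩

lemma IsP.map {p : ℕ} {e : E} (h : IsP p e) (π : E →* G) : IsP p (π e) := by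
  obtain ⟨k, hk⟩ := h
  exact ⟨k, by rw [← map_pow, hk, map_one]⟩

lemma isP_of_mem {p : ℕ} {U : Subgroup E} (hU : IsPGroup p U) {e : E} (he : e ∈ U) : IsP p e := by
  obtain ⟨k, hk⟩ := hU ⟨e, he⟩
  exact ⟨k, congrArg Subtype.val hk⟩

lemma isPGroup_of {p : ℕ} {U : Subgroup E} (hU : ∀ e ∈ U, IsP p e) : IsPGroup p U := by
  rintro ⟨e, he⟩
  obtain ⟨k, hk⟩ := hU e he
  exact ⟨k, Subtype.ext hk⟩

/-- a surjection whose kernel is central and has no element of order `p` -/
structure CP (p : ℕ) (π : E →* G) : Prop where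
  surj : Function.Surjective π
  central : ∀ z, π z = 1 → ∀ g, z * g = g * z
  pp : ∀ z, π z = 1 → z ^ p = 1 → z = 1

/-- the `p`-elements above `U` -/
def liftS (p : ℕ) (π : E →* G) (U : Subgroup G) : Subgroup E :=
  closure {e | π e ∈ U ∧ IsP p e}

open Classical in
/-- the `p`-element above `g` -/
noncomputable def liftE (p : ℕ) (π : E →* G) (g : G) : E :=
  if h : ∃ e, π e = g ∧ IsP p e then h.choose else 1

namespace CP
variable {p : ℕ} {π : E →* G} (c : CP p π)
include c

lemma ker_one {z : E} (hz : π z = 1) (hp : IsP p z) : z = 1 := by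
  obtain ⟨k, hk⟩ := hp
  induction k generalizing z with
  | zero => simpa using hk
  | succ k ih =>
    refine c.pp z hz (ih (by rw [map_pow, hz, one_pow]) ?_)
    rw [← pow_mul, ← pow_succ', hk]

lemma uniq {a b : E} (ha : IsP p a) (hb : IsP p b) (hab : π a = π b) : a = b := by
  obtain ⟨k, hk⟩ := ha
  obtain ⟨l, hl⟩ := hb
  have hz : π (b⁻¹ * a) = 1 := by rw [map_mul, map_inv, hab, inv_mul_cancel]
  have hc : Commute b (b⁻¹ * a) := (c.central _ hz b).symm
  have h1 : (b * (b⁻¹ * a)) ^ p ^ (k + l) = 1 := by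
    rw [mul_inv_cancel_left, pow_add, pow_mul, hk, one_pow]
  rw [hc.mul_pow, add_comm, pow_add, pow_mul, hl, one_pow, one_mul, ← pow_add] at h1
  have := c.ker_one hz ⟨_, h1⟩
  exact (inv_mul_eq_one.1 this).symm

lemma exists_ker {a b : E} (hab : π a = π b) : ∃ z, π z = 1 ∧ a = b * z :=
  ⟨b⁻¹ * a, by rw [map_mul, map_inv, hab, inv_mul_cancel], by group⟩

variable [Finite E] [hp : Fact p.Prime]

lemma exists_sub {U : Subgroup G} (hU : IsPGroup p U) :
    ∃ P : Subgroup E, IsPGroup p P ∧ (∀ e ∈ P, π e ∈ U) ∧ ∀ u ∈ U, ∃ e ∈ P, π e = u := by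
  obtain ⟨P⟩ : Nonempty (Sylow p (U.comap π)) := inferInstance
  have hs := π.subgroupComap_surjective_of_surjective U c.surj
  have h1 : ((P.mapSurjective hs : Sylow p U) : Subgroup U) = ⊤ :=
    ((P.mapSurjective hs).is_maximal' (hU.to_subgroup ⊤) le_top).symm
  refine ⟨(P : Subgroup (U.comap π)).map (U.comap π).subtype, P.isPGroup'.map _, ?_, ?_⟩
  · rintro _ ⟨e, _, rfl⟩
    exact e.2
  · intro u hu
    have : (⟨u, hu⟩ : U) ∈ ((P.mapSurjective hs : Sylow p U) : Subgroup U) := by
      rw [h1]; exact mem_top _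
    rw [Sylow.coe_mapSurjective] at this
    obtain ⟨e, he, he'⟩ := this
    exact ⟨e, ⟨e, he, rfl⟩, congrArg Subtype.val he'⟩

lemma mem_liftS {U : Subgroup G} (hU : IsPGroup p U) {e : E} :
    e ∈ liftS p π U ↔ π e ∈ U ∧ IsP p e := by
  refine ⟨fun he => ?_, fun he => subset_closure he⟩
  obtain ⟨P, hP, h1, h2⟩ := c.exists_sub hU
  have : liftS p π U ≤ P := by
    refine (closure_le _).2 ?_
    rintro a ⟨ha, ha'⟩
    obtain ⟨b, hb, hb'⟩ := h2 _ ha
    rw [c.uniq ha' (isP_of_mem hP hb) hb'.symm]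
    exact hb
  exact ⟨h1 e (this he), isP_of_mem hP (this he)⟩

lemma liftS_pgroup {U : Subgroup G} (hU : IsPGroup p U) : IsPGroup p (liftS p π U) :=
  isPGroup_of fun _ he => ((c.mem_liftS hU).1 he).2

lemma exists_liftS {U : Subgroup G} (hU : IsPGroup p U) {u : G} (hu : u ∈ U) :
    ∃ e ∈ liftS p π U, π e = u := by
  obtain ⟨P, hP, h1, h2⟩ := c.exists_sub hU
  obtain ⟨e, he, he'⟩ := h2 u hu
  exact ⟨e, (c.mem_liftS hU).2 ⟨h1 e he, isP_of_mem hP he⟩, he'⟩

lemma exists_lift {g : G} (hg : IsP p g) : ∃ e, π e = g ∧ IsP p e := by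
  have hU : IsPGroup p (zpowers g) := by
    refine isPGroup_of ?_
    rintro _ ⟨j, rfl⟩
    obtain ⟨k, hk⟩ := hg
    exact ⟨k, by show (g ^ j) ^ p ^ k = 1; rw [← zpow_natCast, ← zpow_mul, mul_comm, zpow_mul,
      zpow_natCast, hk, one_zpow]⟩
  obtain ⟨e, he, he'⟩ := c.exists_liftS hU (mem_zpowers g)
  exact ⟨e, he', ((c.mem_liftS hU).1 he).2⟩

lemma liftE_spec {g : G} (hg : IsP p g) : π (liftE p π g) = g ∧ IsP p (liftE p π g) := by
  unfold liftE
  rw [dif_pos (c.exists_lift hg)]
  exact (c.exists_lift hg).choose_spec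

lemma map_liftE {g : G} (hg : IsP p g) : π (liftE p π g) = g := (c.liftE_spec hg).1

lemma isP_liftE {g : G} (hg : IsP p g) : IsP p (liftE p π g) := (c.liftE_spec hg).2

lemma eq_liftE {e : E} (he : IsP p e) : liftE p π (π e) = e :=
  c.uniq (c.isP_liftE (he.map π)) he (c.map_liftE (he.map π))

lemma liftE_mem {U : Subgroup G} (hU : IsPGroup p U) {u : G} (hu : u ∈ U) :
    liftE p π u ∈ liftS p π U := by
  have := c.liftE_spec (isP_of_mem hU hu)
  exact (c.mem_liftS hU).2 ⟨by rw [this.1]; exact hu, this.2⟩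

lemma liftE_mul {U : Subgroup G} (hU : IsPGroup p U) {a b : G} (ha : a ∈ U) (hb : b ∈ U) :
    liftE p π (a * b) = liftE p π a * liftE p π b := by
  refine c.uniq (c.isP_liftE (isP_of_mem hU (mul_mem ha hb)))
    ((c.mem_liftS hU).1 (mul_mem (c.liftE_mem hU ha) (c.liftE_mem hU hb))).2 ?_
  rw [map_mul, c.map_liftE (isP_of_mem hU ha), c.map_liftE (isP_of_mem hU hb),
    c.map_liftE (isP_of_mem hU (mul_mem ha hb))]

lemma liftE_conj {g : G} (hg : IsP p g) (e : E) :
    e * liftE p π g * e⁻¹ = liftE p π (π e * g * (π e)⁻¹) := by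
  refine c.uniq ((c.isP_liftE hg).conj e) (c.isP_liftE (hg.conj _)) ?_
  rw [map_mul, map_mul, map_inv, c.map_liftE hg, c.map_liftE (hg.conj _)]

/-- a split BN-pair lifts -/
theorem sb {B N U : Subgroup G} {S : Set G} (h : SB p B N U S) :
    SB p (B.comap π) (N.comap π) (liftS p π U) (π ⁻¹' S) where
  norm n hn t ht ht' := by
    rw [mem_comap, map_mul, map_mul, map_inv]
    exact h.norm _ hn _ ht ht'
  sub s hs := h.sub _ hs
  span := by
    refine le_antisymm (fun n hn => ?_) (sup_le ((closure_le _).2 fun s hs => h.sub _ hs)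
      inf_le_right)
    have h1 : π n ∈ (closure (π ⁻¹' S) ⊔ (B.comap π ⊓ N.comap π)).map π := by
      have h2 : π n ∈ N := hn
      rw [h.span] at h2
      refine (sup_le ((closure_le _).2 fun s hs => ?_) fun t ht => ?_ :
        closure S ⊔ (B ⊓ N) ≤ _) h2
      · obtain ⟨e, rfl⟩ := c.surj s
        exact mem_map_of_mem _ (mem_sup_left (subset_closure hs))
      · obtain ⟨e, rfl⟩ := c.surj t
        exact mem_map_of_mem _ (mem_sup_right ht)
    obtain ⟨m, hm, hm'⟩ := h1
    obtain ⟨z, hz, rfl⟩ := c.exists_ker hm'.symm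
    refine mul_mem hm (mem_sup_right (mem_inf.2 ⟨?_, ?_⟩)) <;>
      rw [mem_comap, hz] <;> exact one_mem _
  sq s hs := by
    rw [mem_comap, map_mul]
    exact h.sq _ hs
  mul s hs b hb n hn := by
    have key : ∀ m x : E, DC B (π m) (π x) → DC (B.comap π) m x := by
      rintro m x ⟨a, ha, a', ha', e⟩
      obtain ⟨a, rfl⟩ := c.surj a
      obtain ⟨a', rfl⟩ := c.surj a'
      rw [← map_mul, ← map_mul] at e
      obtain ⟨z, hz, rfl⟩ := c.exists_ker e
      refine ⟨a, ha, a' * z, ?_, by group⟩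
      rw [mem_comap, map_mul, hz, mul_one]
      exact ha'
    rcases h.mul _ hs _ hb _ hn with h1 | h1
    · left
      refine key _ _ ?_
      rwa [map_mul, map_mul]
    · right
      refine key _ _ ?_
      rwa [map_mul, map_mul, map_mul]
  thick s hs := by
    obtain ⟨b, hb, hb'⟩ := h.thick _ hs
    obtain ⟨b, rfl⟩ := c.surj b
    refine ⟨b, hb, fun h1 => hb' ?_⟩
    rwa [mem_comap, map_mul, map_mul, map_inv] at h1
  gen := by rw [comap_sup_eq _ _ _ c.surj, h.gen, comap_top]
  le e he := h.le ((c.mem_liftS h.pgroup).1 he).1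
  pgroup := c.liftS_pgroup h.pgroup
  normal b hb u hu := by
    obtain ⟨h1, h2⟩ := (c.mem_liftS h.pgroup).1 hu
    refine (c.mem_liftS h.pgroup).2 ⟨?_, h2.conj b⟩
    rw [map_mul, map_mul, map_inv]
    exact h.normal _ hb _ h1
  split b hb := by
    obtain ⟨u, hu, t, ht, ht', e⟩ := h.split _ hb
    obtain ⟨u', hu', rfl⟩ := c.exists_liftS h.pgroup hu
    have e' : π (u'⁻¹ * b) = t := by rw [map_mul, map_inv, e, inv_mul_cancel_left]
    refine ⟨u', hu', u'⁻¹ * b, ?_, ?_, by group⟩
    · rw [mem_comap, e']; exact ht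
    · rw [mem_comap, e']; exact ht'
  coprime hd := by
    obtain ⟨t, ht⟩ := exists_prime_orderOf_dvd_card' p hd
    have h1 : (t : E) ^ p = 1 := by
      rw [← ht]
      exact congrArg Subtype.val (pow_orderOf_eq_one t)
    haveI : Finite G := Finite.of_surjective π c.surj
    have h2 : π t = 1 := by
      by_contra hne
      apply h.coprime
      have h3 : orderOf (⟨π t, t.2.1, t.2.2⟩ : (B ⊓ N : Subgroup G)) = p := by
        refine orderOf_eq_prime (Subtype.ext ?_) fun h4 => hne (congrArg Subtype.val h4)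
        show π t ^ p = 1
        rw [← map_pow, h1, map_one]
      rw [← h3]
      exact orderOf_dvd_natCard _
    have h4 : t = 1 := Subtype.ext (c.pp _ h2 h1)
    rw [h4, orderOf_one] at ht
    exact hp.out.one_lt.ne ht
  strong s hs x hx hx' u hu := by
    obtain ⟨h1, h2⟩ := (c.mem_liftS h.pgroup).1 hx
    obtain ⟨h3, -⟩ := (c.mem_liftS h.pgroup).1 hx'
    obtain ⟨h4, -⟩ := (c.mem_liftS h.pgroup).1 hu
    refine (c.mem_liftS h.pgroup).2 ⟨?_, (h2.conj u).conj s⟩
    simp only [map_mul, map_inv] at h3 ⊢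
    exact h.strong _ hs _ h1 h3 _ h4
  opp := by
    obtain ⟨n, hn, hn'⟩ := h.opp
    obtain ⟨n, rfl⟩ := c.surj n
    refine ⟨n, hn, fun x hx hx' => ?_⟩
    obtain ⟨h1, h2⟩ := (c.mem_liftS h.pgroup).1 hx
    obtain ⟨h3, -⟩ := (c.mem_liftS h.pgroup).1 hx'
    simp only [map_mul, map_inv] at h3
    exact c.ker_one (hn' _ h1 h3) h2
  nonempty := by
    obtain ⟨s, hs⟩ := h.nonempty
    obtain ⟨e, rfl⟩ := c.surj s
    exact ⟨e, hs⟩

section St
variable {F : Type w} [Field F] [CharP F p] {x y : F → G} (hs : St x y)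
include hs

omit c [Finite E] in
lemma isP_x (a : F) : IsP p (x a) := by
  have : ∀ n : ℕ, x a ^ n = x (n * a) := by
    intro n
    induction n with
    | zero => simp [hs.x_zero]
    | succ n ih => rw [pow_succ, ih, ← hs.xadd]; congr 1; push_cast; ring
  exact ⟨1, by rw [pow_one, this, CharP.cast_eq_zero, zero_mul, hs.x_zero]⟩

omit c [Finite E] in
lemma isP_y (a : F) : IsP p (y a) := by
  have : ∀ n : ℕ, y a ^ n = y (n * a) := by
    intro n
    induction n with
    | zero => simp [hs.y_zero]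
    | succ n ih => rw [pow_succ, ih, ← hs.yadd]; congr 1; push_cast; ring
  exact ⟨1, by rw [pow_one, this, CharP.cast_eq_zero, zero_mul, hs.y_zero]⟩

omit hs in
lemma liftE_add {x : F → G} (hx : ∀ a b, x (a + b) = x a * x b) (hp' : ∀ a, IsP p (x a))
    (a b : F) : liftE p π (x (a + b)) = liftE p π (x a) * liftE p π (x b) := by
  have h0 : x 0 = 1 := by
    have := hx 0 0
    rw [add_zero] at this
    exact left_eq_mul.1 this
  let U : Subgroup G :=
    { carrier := Set.range x
      one_mem' := ⟨0, h0⟩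
      mul_mem' := by
        rintro _ _ ⟨a, rfl⟩ ⟨b, rfl⟩
        exact ⟨a + b, hx a b⟩
      inv_mem' := by
        rintro _ ⟨a, rfl⟩
        exact ⟨-a, by rw [eq_inv_iff_mul_eq_one, ← hx, neg_add_cancel, h0]⟩ }
  have hU : IsPGroup p U := isPGroup_of (by rintro _ ⟨a, rfl⟩; exact hp' a)
  rw [hx]
  exact c.liftE_mul hU ⟨a, rfl⟩ ⟨b, rfl⟩

lemma map_stW (t : F) :
    π (stW (fun a => liftE p π (x a)) (fun a => liftE p π (y a)) t) = stW x y t := by
  unfold stW
  rw [map_mul, map_mul, c.map_liftE (isP_x hs _), c.map_liftE (isP_y hs _)]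

lemma map_stH (t : F) :
    π (stH (fun a => liftE p π (x a)) (fun a => liftE p π (y a)) t) = stH x y t := by
  unfold stH
  rw [map_mul, c.map_stW hs, c.map_stW hs]

/-- Steinberg's relations lift -/
theorem st : St (fun a => liftE p π (x a)) (fun a => liftE p π (y a)) where
  xadd := c.liftE_add hs.xadd (isP_x hs)
  yadd := c.liftE_add hs.yadd (isP_y hs)
  wx t ht s := by rw [c.liftE_conj (isP_x hs s), c.map_stW hs, hs.wx t ht]

/-- an element above a diagonal automorphism centralises the elements above the torus -/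
theorem comm_torus [Finite F] {τ e : E} {a t : F} (ha : a ≠ 0) (ht : t ≠ 0)
    (h1 : ∀ s, π τ * x s * (π τ)⁻¹ = x (a * s)) (h2 : ∀ s, π τ * y s * (π τ)⁻¹ = y (a⁻¹ * s))
    (he : π e = stH x y t) : Commute τ e := by
  have h3 := (c.st hs).tau_comm (τ := τ) ha
    (fun s => by rw [c.liftE_conj (isP_x hs s), h1])
    (fun s => by rw [c.liftE_conj (isP_y hs s), h2]) ht
  rw [← c.map_stH hs] at he
  obtain ⟨z, hz, rfl⟩ := c.exists_ker he
  exact h3.mul_right (c.central z hz τ).symm

end St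

omit [Finite E] hp in
/-- If the elements above `A` centralise the elements above `T`, and `T` is generated by `A` and one
more element, then the preimage of `T` is abelian. -/
theorem comm_of_cyclic {T : Subgroup G} {A : Set G} {g : G} (hg : g ∈ T) (hAT : A ⊆ T)
    (hT : T ≤ closure (insert g A)) (hA : ∀ e τ : E, π e ∈ A → π τ ∈ T → Commute τ e)
    {a b : E} (ha : π a ∈ T) (hb : π b ∈ T) : Commute a b := by
  obtain ⟨g', rfl⟩ := c.surj g
  have h1 : ∀ e : E, π e ∈ T → e ∈ closure (π ⁻¹' insert (π g') A) := by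
    intro e he
    have h2 : π e ∈ (closure (π ⁻¹' insert (π g') A)).map π := by
      refine ((closure_le _).2 fun s hs => ?_ : closure (insert (π g') A) ≤ _) (hT he)
      obtain ⟨s, rfl⟩ := c.surj s
      exact mem_map_of_mem _ (subset_closure hs)
    obtain ⟨m, hm, hm'⟩ := h2
    obtain ⟨z, hz, rfl⟩ := c.exists_ker hm'.symm
    refine mul_mem hm ?_
    have h3 : z = (g' * z) * g'⁻¹ := by rw [← c.central z hz g']; group
    rw [h3]
    refine mul_mem (subset_closure (Or.inl ?_)) (inv_mem (subset_closure (Or.inl rfl)))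
    rw [map_mul, hz, mul_one]
  have h2 : ∀ s ∈ π ⁻¹' insert (π g') A, ∀ s' ∈ π ⁻¹' insert (π g') A, Commute s s' := by
    rintro s (hs | hs) s' (hs' | hs')
    · obtain ⟨z, hz, rfl⟩ := c.exists_ker (hs.trans hs'.symm)
      exact (Commute.refl s').mul_left (c.central z hz s')
    · exact hA _ _ hs' (by rw [hs]; exact hg)
    · exact (hA _ _ hs (by rw [hs']; exact hg)).symm
    · exact hA _ _ hs' (hAT hs)
  have h3 : ∀ s ∈ π ⁻¹' insert (π g') A, Commute s b := by
    intro s hs
    have : closure (π ⁻¹' insert (π g') A) ≤ centralizer {s} := by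
      refine (closure_le _).2 fun s' hs' => ?_
      rw [SetLike.mem_coe, mem_centralizer_singleton_iff]
      exact (h2 s' hs' s hs).eq
    exact (mem_centralizer_singleton_iff.1 (this (h1 b hb))).symm
  have : closure (π ⁻¹' insert (π g') A) ≤ centralizer {b} := by
    refine (closure_le _).2 fun s hs => ?_
    rw [SetLike.mem_coe, mem_centralizer_singleton_iff]
    exact (h3 s hs).eq
  exact mem_centralizer_singleton_iff.1 (this (h1 a ha))

end CP

end

end Vale.Agent.P183K.Def
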