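import Vale.Agent.P240.H195.BNWord
import Vale.Agent.P183K.Def.Cover

/-!
# P183K, defining characteristic: the torus of `O^{p'}` (helper2)

For a split BN-pair and `J ⊆ S`, the intersection of `T = B ∩ N` with the group generated by the
`M_s = ⟨U, U^s⟩` (`s ∈ J`) is generated by the groups `T ∩ M_s`; at an `SL₂`-node, `T ∩ M_s`
consists of the elements `h(t)`.
-/

set_option autoImplicit false
set_option linter.all false

namespace Vale.Agent.P183K.Def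

open Subgroup Vale.Agent.P240.H195

universe u v w

section
variable {L : Type u} [Group L]

/-- `⟨U, s U s⁻¹⟩` -/
def Ms (U : Subgroup L) (s : L) : Subgroup L := U ⊔ U.map (MulAut.conj s).toMonoidHom

/-- the group generated by the `T ∩ M_s`, `s ∈ J` -/
def T1 (B N U : Subgroup L) (J : Set L) : Subgroup L :=
  closure {t | t ∈ B ∧ t ∈ N ∧ ∃ s ∈ J, t ∈ Ms U s}

/-- the group generated by `U` and the `M_s`, `s ∈ J` -/
def G0 (U : Subgroup L) (J : Set L) : Subgroup L := U ⊔ ⨆ s ∈ J, Ms U s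

/-- `a` is a representative of `s` in `M_s` -/
def Gd (B N U : Subgroup L) (s a : L) : Prop := a ∈ N ∧ a ∈ Ms U s ∧ s⁻¹ * a ∈ B

/-- words in good representatives -/
inductive GW (B N U : Subgroup L) (J : Set L) : ℕ → L → Prop
  | zero {t : L} : t ∈ T1 B N U J → GW B N U J 0 t
  | succ {s a n : L} {k : ℕ} : s ∈ J → Gd B N U s a → GW B N U J k n → GW B N U J (k + 1) (a * n)

variable {B N U : Subgroup L} {S J : Set L}

lemma le_Ms (U : Subgroup L) (s : L) : U ≤ Ms U s := le_sup_left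

lemma conj_mem_Ms {s u : L} (hu : u ∈ U) : s * u * s⁻¹ ∈ Ms U s :=
  (le_sup_right : _ ≤ Ms U s) ⟨u, hu, rfl⟩

lemma Ms_le {s : L} {H : Subgroup L} (h1 : U ≤ H) (h2 : ∀ u ∈ U, s * u * s⁻¹ ∈ H) :
    Ms U s ≤ H := by
  refine sup_le h1 ?_
  rintro _ ⟨u, hu, rfl⟩
  exact h2 u hu

lemma Ms_le_G0 {s : L} (hs : s ∈ J) : Ms U s ≤ G0 U J :=
  le_sup_of_le_right (le_iSup₂_of_le (f := fun s (_ : s ∈ J) => Ms U s) s hs le_rfl)

lemma G0_le {H : Subgroup L} (h1 : U ≤ H) (h2 : ∀ s ∈ J, ∀ u ∈ U, s * u * s⁻¹ ∈ H) :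
    G0 U J ≤ H := sup_le h1 (iSup₂_le fun s hs => Ms_le h1 (h2 s hs))

lemma T1_le : T1 B N U J ≤ B ⊓ N := (closure_le _).2 fun _ ht => ⟨ht.1, ht.2.1⟩

lemma mem_T1 {s t : L} (hs : s ∈ J) (h1 : t ∈ B) (h2 : t ∈ N) (h3 : t ∈ Ms U s) :
    t ∈ T1 B N U J := subset_closure ⟨h1, h2, s, hs, h3⟩

lemma T1_le_G0 : T1 B N U J ≤ G0 U J := (closure_le _).2 (by
  rintro t ⟨_, _, s, hs, ht⟩
  exact Ms_le_G0 hs ht)

lemma conj_closure {g : L} {X : Set L} {H : Subgroup L} (hX : ∀ x ∈ X, g * x * g⁻¹ ∈ H) {y : L}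
    (hy : y ∈ closure X) : g * y * g⁻¹ ∈ H := by
  have : closure X ≤ H.comap (MulAut.conj g).toMonoidHom := (closure_le _).2 hX
  exact this hy

variable {r : ℕ} (h : SB r B N U S)
include h

lemma Ms_le_Par (s : L) : Ms U s ≤ Par B s :=
  Ms_le (h.le.trans le_Par) fun _ hu =>
    mul_mem (mul_mem self_mem_Par (le_Par (h.le hu))) (inv_mem self_mem_Par)

lemma Ms_conj_T {s t x : L} (hs : s ∈ S) (ht : t ∈ B) (htN : t ∈ N) (hx : x ∈ Ms U s) :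
    t * x * t⁻¹ ∈ Ms U s := by
  have : Ms U s ≤ (Ms U s).comap (MulAut.conj t).toMonoidHom := by
    refine Ms_le (fun u hu => le_Ms U s (h.normal t ht u hu)) fun u hu => ?_
    have h1 := conj_mem_Ms (s := s) (h.normal _ (h.norm' (h.sub s hs) ht htN) u hu)
    have e : s * (s⁻¹ * t * s * u * (s⁻¹ * t * s)⁻¹) * s⁻¹ = t * (s * u * s⁻¹) * t⁻¹ := by group
    rwa [e] at h1
  exact this hx

lemma conj_mem_Ms' {s n u : L} (hs : s ∈ S) (hn : s⁻¹ * n ∈ B) (hu : u ∈ U) :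
    n * u * n⁻¹ ∈ Ms U s := by
  have h1 := conj_mem_Ms (s := s) (h.normal _ hn u hu)
  have e : s * (s⁻¹ * n * u * (s⁻¹ * n)⁻¹) * s⁻¹ = n * u * n⁻¹ := by group
  rwa [e] at h1

lemma Gd.inv {s a : L} (hs : s ∈ S) (ha : Gd B N U s a) : Gd B N U s a⁻¹ := by
  refine ⟨inv_mem ha.1, inv_mem ha.2.1, ?_⟩
  have hsN := h.sub s hs
  have h1 := h.norm' hsN (inv_mem ha.2.2) (inv_mem (mul_mem (inv_mem hsN) ha.1))
  have e : s⁻¹ * a⁻¹ = s⁻¹ * (s⁻¹ * a)⁻¹ * s * (s⁻¹ * s⁻¹) := by group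
  rw [e]
  exact mul_mem h1 (h.inv_mul hs)

lemma Gd.conj_T {s a t : L} (hs : s ∈ S) (ha : Gd B N U s a) (ht : t ∈ B) (htN : t ∈ N) :
    Gd B N U s (t * a * t⁻¹) := by
  refine ⟨mul_mem (mul_mem htN ha.1) (inv_mem htN), Ms_conj_T h hs ht htN ha.2.1, ?_⟩
  have e : s⁻¹ * (t * a * t⁻¹) = (s⁻¹ * t * s) * (s⁻¹ * a) * t⁻¹ := by group
  rw [e]
  exact mul_mem (mul_mem (h.norm' (h.sub s hs) ht htN) ha.2.2) (inv_mem ht)

lemma Gd.mul_mem {s a b : L} (hs : s ∈ S) (ha : Gd B N U s a) (hb : Gd B N U s b) :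
    a * b ∈ B := by
  have h1 := (ha.inv h hs).2.2
  have e : a * b = (s⁻¹ * a⁻¹)⁻¹ * (s⁻¹ * b) := by group
  rw [e]
  exact Subgroup.mul_mem _ (inv_mem h1) hb.2.2

lemma T1_conj_T (hJ : J ⊆ S) {t x : L} (ht : t ∈ B) (htN : t ∈ N) (hx : x ∈ T1 B N U J) :
    t * x * t⁻¹ ∈ T1 B N U J := by
  refine conj_closure ?_ hx
  rintro y ⟨h1, h2, s, hs, h3⟩
  exact mem_T1 hs (h.norm t htN y h1 h2) (mul_mem (mul_mem htN h2) (inv_mem htN))
    (Ms_conj_T h (hJ hs) ht htN h3)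

lemma T1_conj_Gd (hJ : J ⊆ S) {s a x : L} (hs : s ∈ J) (ha : Gd B N U s a)
    (hx : x ∈ T1 B N U J) : a * x * a⁻¹ ∈ T1 B N U J := by
  obtain ⟨hxB, hxN⟩ := T1_le hx
  have h1 : a * (x * a⁻¹ * x⁻¹) ∈ T1 B N U J := by
    have h2 := (ha.inv h (hJ hs)).conj_T h (hJ hs) hxB hxN
    exact mem_T1 hs (ha.mul_mem h (hJ hs) h2) (mul_mem ha.1 h2.1) (mul_mem ha.2.1 h2.2.1)
  have e : a * x * a⁻¹ = a * (x * a⁻¹ * x⁻¹) * x := by group
  rw [e]
  exact mul_mem h1 hx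

lemma GW.wd (hJ : J ⊆ S) {k : ℕ} {n : L} (hn : GW B N U J k n) : Wd B N S k n := by
  induction hn with
  | zero ht => exact Wd.zero (T1_le ht).1 (T1_le ht).2
  | @succ s a n k hs ha _ ih =>
    have hsN := h.sub s (hJ hs)
    have h1 := Wd.succ (hJ hs) (h.wd_left ih _ ha.2.2 (mul_mem (inv_mem hsN) ha.1))
    have e : s * (s⁻¹ * a * n) = a * n := by group
    rwa [e] at h1

lemma GW.mem (hJ : J ⊆ S) {k : ℕ} {n : L} (hn : GW B N U J k n) : n ∈ N :=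
  h.wd_mem (hn.wd h hJ)

lemma GW.conj (hJ : J ⊆ S) {k : ℕ} {n x : L} (hn : GW B N U J k n) (hx : x ∈ T1 B N U J) :
    n * x * n⁻¹ ∈ T1 B N U J := by
  induction hn with
  | zero ht => exact mul_mem (mul_mem ht hx) (inv_mem ht)
  | @succ s a n k hs ha _ ih =>
    have h1 := T1_conj_Gd h hJ hs ha ih
    have e : a * (n * x * n⁻¹) * a⁻¹ = a * n * x * (a * n)⁻¹ := by group
    rwa [e] at h1

lemma GW.left (hJ : J ⊆ S) {k : ℕ} {n : L} (hn : GW B N U J k n) :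
    ∀ x ∈ T1 B N U J, GW B N U J k (x * n) := by
  induction hn with
  | zero ht => exact fun x hx => GW.zero (mul_mem hx ht)
  | @succ s a n k hs ha _ ih =>
    intro x hx
    have h1 := T1_conj_Gd h hJ hs (ha.inv h (hJ hs)) hx
    have h2 := GW.succ hs ha (ih _ h1)
    have e : a * (a⁻¹ * x * a⁻¹⁻¹ * n) = x * (a * n) := by group
    rwa [e] at h2

lemma GW.right (hJ : J ⊆ S) {k : ℕ} {n x : L} (hn : GW B N U J k n) (hx : x ∈ T1 B N U J) :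
    GW B N U J k (n * x) := by
  have h1 := hn.left h hJ _ (hn.conj h hJ hx)
  have e : n * x * n⁻¹ * n = n * x := by group
  rwa [e] at h1

lemma GW.mul_right (hJ : J ⊆ S) {k : ℕ} {n s a : L} (hn : GW B N U J k n) (hs : s ∈ J)
    (ha : Gd B N U s a) : GW B N U J (k + 1) (n * a) := by
  induction hn with
  | @zero t ht =>
    have h1 := GW.succ hs ha (GW.zero (T1_conj_Gd h hJ hs (ha.inv h (hJ hs)) ht))
    have e : a * (a⁻¹ * t * a⁻¹⁻¹) = t * a := by group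
    rwa [e] at h1
  | @succ s' a' n k hs' ha' _ ih =>
    rw [mul_assoc]
    exact GW.succ hs' ha' ih

lemma rg_inv_of {m s t : L} (hm : m ∈ N) (hs : s ∈ S) (ht : t ∈ S) (hr : RG B m s)
    (hts : (t * m)⁻¹ * (m * s) ∈ B) : RG B m⁻¹ t := by
  by_contra hcon
  have hsN := h.sub s hs
  have htN := h.sub t ht
  obtain ⟨k, hk⟩ := h.exists_len hm
  obtain ⟨j, hj, hw⟩ := h.exch (h.wd_inv hk.1) ht hcon
  have h1 := h.len_mul hk hs hr
  refine h1.2 j (by omega) (h.wd_congr (h.wd_inv hw) (mul_mem hm hsN) ?_)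
  have h2 := h.norm' hm (h.sq t ht) (mul_mem htN htN)
  have e : (m⁻¹ * t)⁻¹⁻¹ * (m * s) = (m⁻¹ * (t * t) * m) * ((t * m)⁻¹ * (m * s)) := by group
  rw [e]
  exact mul_mem h2 hts

variable [Finite L] (hr : r.Prime)
include hr

lemma U_inf_N {x : L} (hx : x ∈ U) (hxN : x ∈ N) : x = 1 := by
  obtain ⟨n, hn, hn'⟩ := h.opp
  exact hn' x hx (h.conj_U hr hx (h.norm n hn x (h.le hx) hxN))

/-- parallel panels -/
lemma key {m s t : L} (hm : m ∈ N) (hs : s ∈ S) (ht : t ∈ S) (hrg : RG B m s)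
    (hts : (t * m)⁻¹ * (m * s) ∈ B) : ∃ g, Gd B N U s g ∧ Gd B N U t (m * g * m⁻¹) := by
  have hsN := h.sub s hs
  have htN := h.sub t ht
  have hτN : (t * m)⁻¹ * (m * s) ∈ N := mul_mem (inv_mem (mul_mem htN hm)) (mul_mem hm hsN)
  -- `m s m⁻¹` represents `t`
  have h0 : t⁻¹ * (m * s * m⁻¹) ∈ B := by
    have h1 := h.norm m hm _ hts hτN
    have e : m * ((t * m)⁻¹ * (m * s)) * m⁻¹ = t⁻¹ * (m * s * m⁻¹) := by group
    rwa [e] at h1
  have hD : ∀ x ∈ U, m * x * m⁻¹ ∈ U → m * (s * x * s⁻¹) * m⁻¹ ∈ Ms U t := by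
    intro x _ hx'
    have h1 := conj_mem_Ms' h ht h0 hx'
    have e : m * s * m⁻¹ * (m * x * m⁻¹) * (m * s * m⁻¹)⁻¹ = m * (s * x * s⁻¹) * m⁻¹ := by group
    rwa [e] at h1
  have hDT : ∀ x ∈ U, m * x * m⁻¹ ∈ U → ∀ τ ∈ B, τ ∈ N → m * (τ * x * τ⁻¹) * m⁻¹ ∈ U := by
    intro x _ hx' τ hτ hτ'
    have h1 := h.normal _ (h.norm m hm τ hτ hτ') _ hx'
    have e : m * τ * m⁻¹ * (m * x * m⁻¹) * (m * τ * m⁻¹)⁻¹ = m * (τ * x * τ⁻¹) * m⁻¹ := by group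
    rwa [e] at h1
  obtain ⟨x, hx, hmx, hxs⟩ := h.transit' hr hm hs hrg
  have hs2 := h.inv_mul hs
  have hs2N : s⁻¹ * s⁻¹ ∈ N := mul_mem (inv_mem hsN) (inv_mem hsN)
  have ex : s⁻¹ * x * s = s * (s⁻¹ * s⁻¹ * x * (s⁻¹ * s⁻¹)⁻¹) * s⁻¹ := by group
  have hd1 : s⁻¹ * x * s ∈ Ms U s := by
    rw [ex]; exact conj_mem_Ms (h.normal _ hs2 x hx)
  have hd2 : m * (s⁻¹ * x * s) * m⁻¹ ∈ Ms U t := by
    rw [ex]; exact hD _ (h.normal _ hs2 x hx) (hDT x hx hmx _ hs2 hs2N)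
  obtain ⟨u, hu, b, hb, e1⟩ := h.coset_form hs (Ms_le_Par h s hd1) hxs
  obtain ⟨d, hd, hmd, hds⟩ := h.transit hr hm hs (h.le hu) hrg
  obtain ⟨u', hu', τ, hτ, hτ', e2⟩ := h.split _ (mul_mem hds hb)
  have e3 : d⁻¹ * (s⁻¹ * x * s) = s * (u' * τ) := by rw [← e2, e1]; group
  have hg1 : s * (u' * τ) ∈ Ms U s := by
    rw [← e3]; exact mul_mem (inv_mem (le_Ms U s hd)) hd1
  have hg2 : m * (s * (u' * τ)) * m⁻¹ ∈ Ms U t := by
    have e : m * (s * (u' * τ)) * m⁻¹ = (m * d * m⁻¹)⁻¹ * (m * (s⁻¹ * x * s) * m⁻¹) := by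
      rw [← e3]; group
    rw [e]
    exact mul_mem (inv_mem (le_Ms U t hmd)) hd2
  have hmu : m * u' * m⁻¹ ∈ U := by
    refine h.conj_U hr hu' ?_
    have h1 : m * u' * m⁻¹ ∈ Par B t := by
      have e : m * u' * m⁻¹ = (t⁻¹ * (m * s * m⁻¹))⁻¹ * t⁻¹ * (m * (s * (u' * τ)) * m⁻¹) *
          (m * τ * m⁻¹)⁻¹ := by group
      rw [e]
      exact mul_mem (mul_mem (mul_mem (inv_mem (le_Par h0)) (inv_mem self_mem_Par))
        (Ms_le_Par h t hg2)) (inv_mem (le_Par (h.norm m hm τ hτ hτ')))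
    rcases (h.mem_Par ht).1 h1 with h2 | ⟨b₁, hb₁, b₂, hb₂, h2⟩
    · exact h2
    · exfalso
      have h3 := (h.rg_inv ht (rg_inv_of h hm hs ht hrg hts) hb₂).left hb₁
      have e : b₁ * (t * b₂ * m) = m * u' := by
        rw [show b₁ * (t * b₂ * m) = (b₁ * t * b₂) * m by group, ← h2]; group
      rw [e] at h3
      have h4 := h.inj hm (mul_mem htN hm) (((DC.refl m).right (h.le hu')).trans h3.symm)
      apply h.not_mem hs
      have e' : s = (m⁻¹ * (t * m)) * ((t * m)⁻¹ * (m * s)) := by group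
      rw [e']
      exact mul_mem h4 hts
  refine ⟨s * τ, ⟨mul_mem hsN hτ', ?_, by rwa [inv_mul_cancel_left]⟩,
    mul_mem (mul_mem hm (mul_mem hsN hτ')) (inv_mem hm), ?_, ?_⟩
  · have e : s * τ = (s * u' * s⁻¹)⁻¹ * (s * (u' * τ)) := by group
    rw [e]
    exact mul_mem (inv_mem (conj_mem_Ms hu')) hg1
  · have e : m * (s * τ) * m⁻¹ = (m * (s * u' * s⁻¹) * m⁻¹)⁻¹ * (m * (s * (u' * τ)) * m⁻¹) := by
      group
    rw [e]
    exact mul_mem (inv_mem (hD u' hu' hmu)) hg2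
  · have e : t⁻¹ * (m * (s * τ) * m⁻¹) = t⁻¹ * (m * s * m⁻¹) * (m * τ * m⁻¹) := by group
    rw [e]
    exact mul_mem h0 (h.norm m hm τ hτ hτ')

lemma exists_Gd {s : L} (hs : s ∈ S) : ∃ g, Gd B N U s g := by
  obtain ⟨g, hg, -⟩ := key h hr (one_mem N) hs hs (BN0.rg_one h.toBN0 hs (one_mem _) (one_mem _))
    (by rw [mul_one, one_mul, inv_mul_cancel]; exact one_mem _)
  exact ⟨g, hg⟩

lemma GW.exch (hJ : J ⊆ S) {k : ℕ} {n s a : L} (hn : GW B N U J k n) (hs : s ∈ J)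
    (ha : Gd B N U s a) : ¬ RG B n s → ∃ j, j + 1 = k ∧ GW B N U J j (n * a) := by
  induction hn with
  | zero ht =>
    exact fun hcon => absurd (BN0.rg_one h.toBN0 (hJ hs) (T1_le ht).1 (T1_le ht).2) hcon
  | @succ t b m k ht hb hm ih =>
    intro hcon
    have hmN := hm.mem h hJ
    have htN := h.sub t (hJ ht)
    by_cases hrg : RG B m s
    · have hcon' : ¬ RG B (t * m) s := fun h1 => hcon (h.rg_congr (mul_mem htN hmN)
        (mul_mem hb.1 hmN) (hJ hs) (by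
          have h2 := h.norm' hmN hb.2.2 (mul_mem (inv_mem htN) hb.1)
          have e : m⁻¹ * (t⁻¹ * b) * m = (t * m)⁻¹ * (b * m) := by group
          rwa [e] at h2) h1)
      obtain ⟨g, hg, hg'⟩ := key h hr hmN (hJ hs) (hJ ht) hrg
        (h.rg_step hmN (hJ hs) (hJ ht) hrg hcon')
      refine ⟨k, rfl, ?_⟩
      have h1 : b * (m * g * m⁻¹) ∈ T1 B N U J :=
        mem_T1 ht (hb.mul_mem h (hJ ht) hg') (mul_mem hb.1 hg'.1) (mul_mem hb.2.1 hg'.2.1)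
      have hgi := hg.inv h (hJ hs)
      have h2 : g⁻¹ * a ∈ T1 B N U J :=
        mem_T1 hs (hgi.mul_mem h (hJ hs) ha) (mul_mem hgi.1 ha.1) (mul_mem hgi.2.1 ha.2.1)
      have h3 := (hm.left h hJ _ h1).right h hJ h2
      have e : b * (m * g * m⁻¹) * m * (g⁻¹ * a) = b * m * a := by group
      rwa [e] at h3
    · obtain ⟨j, hj, hw⟩ := ih hrg
      refine ⟨j + 1, by omega, ?_⟩
      rw [mul_assoc]
      exact GW.succ ht hb hw

omit [Finite L] hr in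
lemma red_right (hJ : J ⊆ S) {n x : L} (hn : ∃ k, GW B N U J k n ∧ h.toBN0.Len k n)
    (hx : x ∈ T1 B N U J) : ∃ k, GW B N U J k (n * x) ∧ h.toBN0.Len k (n * x) := by
  obtain ⟨k, h1, h2⟩ := hn
  exact ⟨k, h1.right h hJ hx, h.len_congr h2 (mul_mem (h1.mem h hJ) (T1_le hx).2)
    (by rw [inv_mul_cancel_left]; exact (T1_le hx).1)⟩

lemma red_mul (hJ : J ⊆ S) {n s a : L} (hn : ∃ k, GW B N U J k n ∧ h.toBN0.Len k n) (hs : s ∈ J)
    (ha : Gd B N U s a) : ∃ k, GW B N U J k (n * a) ∧ h.toBN0.Len k (n * a) := by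
  obtain ⟨k, h1, h2⟩ := hn
  have hnN := h1.mem h hJ
  by_cases hrg : RG B n s
  · refine ⟨k + 1, h1.mul_right h hJ hs ha, h.len_congr (h.len_mul h2 (hJ hs) hrg)
      (mul_mem hnN ha.1) ?_⟩
    have e : (n * s)⁻¹ * (n * a) = s⁻¹ * a := by group
    rw [e]
    exact ha.2.2
  · obtain ⟨j, hj, hw⟩ := h1.exch h hr hJ hs ha hrg
    refine ⟨j, hw, hw.wd h hJ, fun i hi hw' => h2.2 (i + 1) (by omega) ?_⟩
    refine h.wd_congr (h.wd_mul_right hw' (hJ hs)) hnN ?_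
    have e : (n * a * s)⁻¹ * n = s⁻¹ * a⁻¹ := by group
    rw [e]
    exact (ha.inv h (hJ hs)).2.2

lemma rg_form {n s a u : L} (hn : n ∈ N) (hs : s ∈ S) (hrg : RG B n s) (ha : s⁻¹ * a ∈ B)
    (hu : u ∈ U) : ∃ c ∈ U, ∃ d ∈ U, n * u * a = c * (n * a) * d := by
  obtain ⟨x, hx, hnx, hxb⟩ := h.transit hr hn hs (h.le hu) hrg
  refine ⟨n * x * n⁻¹, hnx, a⁻¹ * (x⁻¹ * u) * a, h.conj_U' hr (mul_mem (inv_mem hx) hu) ?_,
    by group⟩
  have e : a⁻¹ * (x⁻¹ * u) * a = (s⁻¹ * a)⁻¹ * ((x * s)⁻¹ * (u * s)) * (s⁻¹ * a) := by group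
  rw [e]
  exact mul_mem (mul_mem (inv_mem ha) hxb) ha

omit [Finite L] hr in
lemma Ms_form {s g : L} (hs : s ∈ S) (hg : g ∈ Ms U s) :
    (∃ u ∈ U, ∃ t ∈ B, t ∈ N ∧ t ∈ Ms U s ∧ g = u * t) ∨
      ∃ u ∈ U, ∃ a, Gd B N U s a ∧ ∃ u' ∈ U, g = u * a * u' := by
  by_cases hgB : g ∈ B
  · obtain ⟨u, hu, t, ht, ht', rfl⟩ := h.split g hgB
    refine Or.inl ⟨u, hu, t, ht, ht', ?_, rfl⟩
    have := mul_mem (inv_mem (le_Ms U s hu)) hg
    rwa [inv_mul_cancel_left] at this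
  · obtain ⟨u, hu, b, hb, rfl⟩ := h.coset_form hs (Ms_le_Par h s hg) hgB
    obtain ⟨v, hv, t, ht, ht', rfl⟩ := h.split b hb
    have hv' : t⁻¹ * v * t ∈ U := by
      have := h.normal _ (inv_mem ht) v hv
      rwa [inv_inv] at this
    refine Or.inr ⟨u, hu, s * t, ⟨mul_mem (h.sub s hs) ht', ?_, by rwa [inv_mul_cancel_left]⟩,
      t⁻¹ * v * t, hv', by group⟩
    have := mul_mem (mul_mem (inv_mem (le_Ms U s hu)) hg) (inv_mem (le_Ms U s hv'))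
    have e : u⁻¹ * (u * s * (v * t)) * (t⁻¹ * v * t)⁻¹ = s * t := by group
    rwa [e] at this

/-- sharp Bruhat decomposition of `G0` -/
theorem G0_form (hJ : J ⊆ S) {g : L} (hg : g ∈ G0 U J) :
    ∃ u ∈ U, ∃ n, (∃ k, GW B N U J k n ∧ h.toBN0.Len k n) ∧ ∃ u' ∈ U, g = u * n * u' := by
  let X : Set L := {g | ∃ u ∈ U, ∃ n, (∃ k, GW B N U J k n ∧ h.toBN0.Len k n) ∧
    ∃ u' ∈ U, g = u * n * u'}
  have hU : ∀ x ∈ X, ∀ u ∈ U, x * u ∈ X := by
    rintro _ ⟨c, hc, n, hn, d, hd, rfl⟩ u hu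
    exact ⟨c, hc, n, hn, d * u, mul_mem hd hu, by group⟩
  have hrg : ∀ s ∈ J, ∀ a, Gd B N U s a → ∀ n, (∃ k, GW B N U J k n ∧ h.toBN0.Len k n) →
      RG B n s → ∀ c ∈ U, ∀ d ∈ U, c * n * d * a ∈ X := by
    intro s hs a ha n hn hrg c hc d hd
    obtain ⟨c', hc', d', hd', e⟩ := rg_form h hr (hn.choose_spec.1.mem h hJ) (hJ hs) hrg ha.2.2 hd
    refine ⟨c * c', mul_mem hc hc', n * a, red_mul h hr hJ hn hs ha, d', hd', ?_⟩
    rw [show c * n * d * a = c * (n * d * a) by group, e]; group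
  have hG : ∀ s ∈ J, ∀ a, Gd B N U s a → ∀ x ∈ X, x * a ∈ X := by
    rintro s hs a ha _ ⟨c, hc, n, hn, d, hd, rfl⟩
    by_cases h1 : RG B n s
    · exact hrg s hs a ha n hn h1 c hc d hd
    · have hai := ha.inv h (hJ hs)
      have hnN := hn.choose_spec.1.mem h hJ
      have hn' := red_mul h hr hJ hn hs hai
      have h2 : RG B (n * a⁻¹) s := by
        refine h.rg_congr (mul_mem hnN (h.sub s (hJ hs))) (mul_mem hnN hai.1) (hJ hs) ?_
          ((h.rg_or hnN (hJ hs)).resolve_left h1)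
        have e : (n * s)⁻¹ * (n * a⁻¹) = s⁻¹ * a⁻¹ := by group
        rw [e]
        exact hai.2.2
      have e : c * n * d * a = c * (n * a⁻¹) * (a * d * a) := by group
      rw [e]
      rcases Ms_form h (hJ hs) (mul_mem (mul_mem ha.2.1 (le_Ms U s hd)) ha.2.1) with
        ⟨u, hu, t, ht, ht', ht'', e'⟩ | ⟨u, hu, a', ha', u', hu', e'⟩
      · refine ⟨c, hc, n * a⁻¹ * t, red_right h hJ hn' (mem_T1 hs ht ht' ht''), t⁻¹ * u * t, ?_,
          by rw [e']; group⟩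
        have := h.normal _ (inv_mem ht) u hu
        rwa [inv_inv] at this
      · have := hU _ (hrg s hs a' ha' _ hn' h2 c hc u hu) u' hu'
        rw [e']
        convert this using 1
        group
  let H : Subgroup L :=
    { carrier := {y | (∀ x ∈ X, x * y ∈ X) ∧ ∀ x ∈ X, x * y⁻¹ ∈ X}
      one_mem' := ⟨fun x hx => by rwa [mul_one], fun x hx => by rwa [inv_one, mul_one]⟩
      mul_mem' := by
        rintro a b ⟨ha, ha'⟩ ⟨hb, hb'⟩
        exact ⟨fun x hx => by rw [← mul_assoc]; exact hb _ (ha x hx),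
          fun x hx => by rw [mul_inv_rev, ← mul_assoc]; exact ha' _ (hb' x hx)⟩
      inv_mem' := by
        rintro a ⟨ha, ha'⟩
        exact ⟨ha', by rwa [inv_inv]⟩ }
  have hUH : U ≤ H := fun u hu => ⟨fun x hx => hU x hx u hu, fun x hx => hU x hx _ (inv_mem hu)⟩
  have hle : G0 U J ≤ H := by
    refine G0_le hUH fun s hs u hu => ?_
    obtain ⟨a, ha⟩ := exists_Gd h hr (hJ hs)
    have haH : a ∈ H := ⟨hG s hs a ha, hG s hs _ (ha.inv h (hJ hs))⟩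
    have e : s * u * s⁻¹ = a * ((s⁻¹ * a)⁻¹ * u * (s⁻¹ * a)⁻¹⁻¹) * a⁻¹ := by group
    rw [e]
    exact mul_mem (mul_mem haH (hUH (h.normal _ (inv_mem ha.2.2) u hu))) (inv_mem haH)
  have h1 : (1 : L) ∈ X := ⟨1, one_mem _, 1, ⟨0, GW.zero (one_mem _),
    Wd.zero (one_mem _) (one_mem _), fun j hj => absurd hj (Nat.not_lt_zero j)⟩, 1, one_mem _,
    by group⟩
  have := (hle hg).1 1 h1
  rwa [one_mul] at this

/-- the torus of `G0` is generated by the tori of the `M_s` -/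
theorem mem_T1_of_G0 (hJ : J ⊆ S) {t : L} (htB : t ∈ B) (htN : t ∈ N) (ht : t ∈ G0 U J) :
    t ∈ T1 B N U J := by
  obtain ⟨u, hu, n, ⟨k, hn, hk⟩, u', hu', e⟩ := G0_form h hr hJ ht
  have hnN := hn.mem h hJ
  have hnB : n ∈ B := by
    have : n = u⁻¹ * t * u'⁻¹ := by rw [e]; group
    rw [this]
    exact mul_mem (mul_mem (inv_mem (h.le hu)) htB) (inv_mem (h.le hu'))
  have hk0 : k = 0 := by
    by_contra hne
    exact hk.2 0 (Nat.pos_of_ne_zero hne) (Wd.zero hnB hnN)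
  subst hk0
  have hn1 : n ∈ T1 B N U J := by
    cases hn with
    | zero h1 => exact h1
  have h1 : t * n⁻¹ = 1 := by
    refine U_inf_N h hr ?_ (mul_mem htN (inv_mem hnN))
    have e' : t * n⁻¹ = u * (n * u' * n⁻¹) := by rw [e]; group
    rw [e']
    exact mul_mem hu (h.normal n hnB u' hu')
  rw [mul_inv_eq_one.1 h1]
  exact hn1

omit hr [Finite L] in
lemma G0_conj_T (hJ : J ⊆ S) {t x : L} (ht : t ∈ B) (htN : t ∈ N) (hx : x ∈ G0 U J) :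
    t * x * t⁻¹ ∈ G0 U J := by
  have : G0 U J ≤ (G0 U J).comap (MulAut.conj t).toMonoidHom := by
    refine G0_le (fun u hu => (le_sup_left : U ≤ G0 U J) (h.normal t ht u hu)) fun s hs u hu => ?_
    exact Ms_le_G0 hs (Ms_conj_T h (hJ hs) ht htN (conj_mem_Ms hu))
  exact this hx

/-- `G0 = O^{p'}` -/
theorem G0_normal : (G0 U S).Normal := by
  refine normalizer_eq_top_iff.1 (eq_top_iff.2 ?_)
  have hT : ∀ t ∈ B, t ∈ N → t ∈ normalizer (G0 U S : Set L) := by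
    intro t ht htN
    rw [mem_normalizer_iff]
    intro x
    refine ⟨G0_conj_T h subset_rfl ht htN, fun hx => ?_⟩
    have := G0_conj_T h subset_rfl (inv_mem ht) (inv_mem htN) hx
    have e : t⁻¹ * (t * x * t⁻¹) * t⁻¹⁻¹ = x := by group
    rwa [e] at this
  rw [← h.closure_top]
  refine (closure_le _).2 ?_
  rintro g (hg | hg)
  · obtain ⟨u, hu, t, ht, htN, rfl⟩ := h.split g hg
    exact mul_mem (le_normalizer ((le_sup_left : U ≤ G0 U S) hu)) (hT t ht htN)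
  · obtain ⟨a, ha⟩ := exists_Gd h hr hg
    have e : g = a * (g⁻¹ * a)⁻¹ := by group
    rw [e]
    exact mul_mem (le_normalizer (Ms_le_G0 hg ha.2.1))
      (inv_mem (hT _ ha.2.2 (mul_mem (inv_mem (h.sub g hg)) ha.1)))

theorem normalClosure_eq : normalClosure (U : Set L) = G0 U S := by
  haveI := G0_normal h hr
  refine le_antisymm (normalClosure_le_normal (le_sup_left : U ≤ G0 U S)) ?_
  exact G0_le subset_normalClosure fun s _ u hu =>
    normalClosure_normal.conj_mem u (subset_normalClosure hu) s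

/-- rank one criterion -/
theorem Ms_inf_T {s w : L} (hs : s ∈ S) (hw : s⁻¹ * w ∈ B) {H : Subgroup L}
    (hH : H ≤ B ⊓ N) (hwH : ∀ η ∈ H, w * η * w⁻¹ ∈ H) (hw2 : w * w ∈ H)
    (hU : ∀ u ∈ U, u ∉ Kg U s → ∃ c ∈ U, ∃ η ∈ H, ∃ d ∈ U, w * u * w = c * η * w * d)
    {t : L} (htB : t ∈ B) (htN : t ∈ N) (ht : t ∈ Ms U s) : t ∈ H := by
  have hwP : w ∈ Par B s := by
    have := mul_mem (self_mem_Par (B := B) (s := s)) (le_Par hw)
    rwa [mul_inv_cancel_left] at this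
  have hn : ∀ η ∈ H, ∀ u ∈ U, η⁻¹ * u * η ∈ U := fun η hη u hu => by
    have := h.normal _ (inv_mem (hH hη).1) u hu
    rwa [inv_inv] at this
  let X : Set L := {g | (∃ c ∈ U, ∃ η ∈ H, g = c * η) ∨ ∃ c ∈ U, ∃ η ∈ H, ∃ d ∈ U,
    g = c * η * w * d}
  have h1 : ∀ x ∈ X, ∀ u ∈ U, x * u ∈ X := by
    rintro _ (⟨c, hc, η, hη, rfl⟩ | ⟨c, hc, η, hη, d, hd, rfl⟩) u hu
    · exact Or.inl ⟨c * (η * u * η⁻¹), mul_mem hc (h.normal _ (hH hη).1 u hu), η, hη, by group⟩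
    · exact Or.inr ⟨c, hc, η, hη, d * u, mul_mem hd hu, by group⟩
  have h2 : ∀ x ∈ X, ∀ η ∈ H, x * η ∈ X := by
    rintro _ (⟨c, hc, η, hη, rfl⟩ | ⟨c, hc, η, hη, d, hd, rfl⟩) θ hθ
    · exact Or.inl ⟨c, hc, η * θ, mul_mem hη hθ, by group⟩
    · exact Or.inr ⟨c, hc, η * (w * θ * w⁻¹), mul_mem hη (hwH θ hθ), θ⁻¹ * d * θ, hn θ hθ d hd,
        by group⟩
  have h3 : ∀ x ∈ X, x * w ∈ X := by
    rintro _ (⟨c, hc, η, hη, rfl⟩ | ⟨c, hc, η, hη, d, hd, rfl⟩)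
    · exact Or.inr ⟨c, hc, η, hη, 1, one_mem _, by group⟩
    · by_cases hK : d ∈ Kg U s
      · refine Or.inl ⟨c * (η * (w * d * w⁻¹) * η⁻¹), mul_mem hc
          (h.normal _ (hH hη).1 _ (h.Kg_conj hs hwP hK).1), η * (w * w), mul_mem hη hw2, by group⟩
      · obtain ⟨c', hc', θ, hθ, d', hd', e⟩ := hU d hd hK
        refine Or.inr ⟨c * (η * c' * η⁻¹), mul_mem hc (h.normal _ (hH hη).1 _ hc'), η * θ,
          mul_mem hη hθ, d', hd', ?_⟩
        rw [show c * η * w * d * w = c * η * (w * d * w) by group, e]; group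
  let K : Subgroup L :=
    { carrier := {y | (∀ x ∈ X, x * y ∈ X) ∧ ∀ x ∈ X, x * y⁻¹ ∈ X}
      one_mem' := ⟨fun x hx => by rwa [mul_one], fun x hx => by rwa [inv_one, mul_one]⟩
      mul_mem' := by
        rintro a b ⟨ha, ha'⟩ ⟨hb, hb'⟩
        exact ⟨fun x hx => by rw [← mul_assoc]; exact hb _ (ha x hx),
          fun x hx => by rw [mul_inv_rev, ← mul_assoc]; exact ha' _ (hb' x hx)⟩
      inv_mem' := by
        rintro a ⟨ha, ha'⟩
        exact ⟨ha', by rwa [inv_inv]⟩ }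
  have hUK : U ≤ K := fun u hu => ⟨fun x hx => h1 x hx u hu, fun x hx => h1 x hx _ (inv_mem hu)⟩
  have hwK : w ∈ K := by
    refine ⟨h3, fun x hx => ?_⟩
    have := h2 _ (h3 x hx) _ (inv_mem hw2)
    have e : x * w * (w * w)⁻¹ = x * w⁻¹ := by group
    rwa [e] at this
  have hle : Ms U s ≤ K := by
    refine Ms_le hUK fun u hu => ?_
    have e : s * u * s⁻¹ = w * ((s⁻¹ * w)⁻¹ * u * (s⁻¹ * w)⁻¹⁻¹) * w⁻¹ := by group
    rw [e]
    exact mul_mem (mul_mem hwK (hUK (h.normal _ (inv_mem hw) u hu))) (inv_mem hwK)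
  have h4 := (hle ht).1 1 (Or.inl ⟨1, one_mem _, 1, one_mem _, by group⟩)
  rw [one_mul] at h4
  rcases h4 with ⟨c, hc, η, hη, e⟩ | ⟨c, hc, η, hη, d, hd, e⟩
  · have : c = 1 := by
      refine U_inf_N h hr hc ?_
      have e' : c = t * η⁻¹ := by rw [e]; group
      rw [e']
      exact mul_mem htN (inv_mem (hH hη).2)
    rw [e, this, one_mul]
    exact hη
  · exfalso
    apply h.not_mem hs
    have e' : s = (c * η)⁻¹ * t * d⁻¹ * (s⁻¹ * w)⁻¹ := by rw [e]; group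
    rw [e']
    exact mul_mem (mul_mem (mul_mem (inv_mem (mul_mem (h.le hc) (hH hη).1)) htB)
      (inv_mem (h.le hd))) (inv_mem hw)

end

end Vale.Agent.P183K.Def
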