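import Vale.Agent.P183CR.Weight
import Vale.Agent.P183K.Def.TGen

/-!
# P183K, defining characteristic: `SL₂`-nodes, characters of the torus, lifting (helper2)
-/

set_option autoImplicit false
set_option linter.all false

namespace Vale.Agent.P183K.Def

open Subgroup Vale.Agent.P240.H195 Vale.Agent.P183CR

universe u v w

section
variable {F : Type w} [Field F] {L : Type u} [Group L]

namespace St
variable {x y : F → L} (h : St x y)
include h

lemma y_eq (c : F) : y c = x c⁻¹ * stW x y (-c⁻¹) * x c⁻¹ := by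
  unfold stW
  rw [h.x_neg, inv_neg, neg_neg, inv_inv]
  group

lemma ww {t s : F} (ht : t ≠ 0) (hs : s ≠ 0) :
    stW x y t * stW x y s * (stW x y t)⁻¹ = stW x y (t ^ 2 * s⁻¹) := by
  have h1 := h.wx t ht s
  have h2 := h.wy ht (-s⁻¹)
  have e1 : -(t⁻¹ ^ 2 * s) = -(t ^ 2 * s⁻¹)⁻¹ := by field_simp
  have e2 : -(t ^ 2 * -s⁻¹) = t ^ 2 * s⁻¹ := by ring
  rw [e1] at h1
  rw [e2] at h2
  rw [h.braid (mul_ne_zero (pow_ne_zero 2 ht) (inv_ne_zero hs)), ← h1, ← h2]
  show stW x y t * (x s * y (-s⁻¹) * x s) * _ = _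
  group

lemma w_eq (t : F) : stW x y t = stH x y t * stW x y 1 := by
  unfold stH
  rw [h.w_neg, inv_mul_cancel_right]

lemma wh {t : F} (ht : t ≠ 0) : stW x y 1 * stH x y t * (stW x y 1)⁻¹ = stH x y t⁻¹ := by
  have h1 := h.ww one_ne_zero ht
  rw [one_pow, one_mul] at h1
  unfold stH
  rw [← h1, h.w_neg]
  group

lemma w_sq : stW x y 1 * stW x y 1 = (stH x y (-1))⁻¹ := by
  unfold stH
  rw [h.w_neg, mul_inv_rev, inv_inv]

/-- the homomorphism `h` -/
def hom [Finite F] : Fˣ →* L where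
  toFun t := stH x y t
  map_one' := h.h_one
  map_mul' a b := h.h_mul a.ne_zero b.ne_zero

lemma hom_apply [Finite F] (t : Fˣ) : h.hom t = stH x y t := rfl

end St

/-- `s` is an `SL₂(F)`-node with root subgroups `x`, `y` -/
structure Node (B N U : Subgroup L) (s : L) (x y : F → L) : Prop extends St x y where
  xmem : ∀ a, x a ∈ U
  span : ∀ u ∈ U, ∃ a, (x a)⁻¹ * u ∈ Kg U s
  wN : ∀ t, t ≠ 0 → stW x y t ∈ N
  wB : ∀ t, t ≠ 0 → s⁻¹ * stW x y t ∈ B

lemma Ms_congr {r : ℕ} {B N U : Subgroup L} {S : Set L} (h : SB r B N U S) {s s' : L}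
    (hss : s⁻¹ * s' ∈ B) : Ms U s' ≤ Ms U s :=
  Ms_le (le_Ms U s) fun u hu => by
    have h1 := conj_mem_Ms (s := s) (h.normal _ hss u hu)
    have e : s * (s⁻¹ * s' * u * (s⁻¹ * s')⁻¹) * s⁻¹ = s' * u * s'⁻¹ := by group
    rwa [e] at h1

namespace Node
variable {r : ℕ} {B N U : Subgroup L} {S : Set L} {s : L} {x y : F → L}
  (hn : Node B N U s x y) (h : SB r B N U S) (hs : s ∈ S)
include hn

lemma h_N {t : F} (ht : t ≠ 0) : stH x y t ∈ N :=
  mul_mem (hn.wN t ht) (hn.wN _ (neg_ne_zero.2 one_ne_zero))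

include h hs

lemma h_B {t : F} (ht : t ≠ 0) : stH x y t ∈ B := by
  have hsN := h.sub s hs
  have h1 := hn.wB t ht
  have h2 := hn.wB 1 one_ne_zero
  have h3 := h.norm s hsN _ (mul_mem h1 (inv_mem h2))
    (mul_mem (mul_mem (inv_mem hsN) (hn.wN t ht))
      (inv_mem (mul_mem (inv_mem hsN) (hn.wN 1 one_ne_zero))))
  unfold stH
  rw [hn.toSt.w_neg]
  convert h3 using 1
  group

lemma y_Ms (b : F) : y b ∈ Ms U s := by
  have h1 := hn.wx 1 one_ne_zero (-b)
  rw [inv_one, one_pow, one_mul, neg_neg] at h1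
  rw [← h1]
  exact conj_mem_Ms' h hs (hn.wB 1 one_ne_zero) (hn.xmem _)

lemma w_Ms (t : F) : stW x y t ∈ Ms U s :=
  mul_mem (mul_mem (le_Ms U s (hn.xmem _)) (hn.y_Ms h hs _)) (le_Ms U s (hn.xmem _))

lemma h_Ms (t : F) : stH x y t ∈ Ms U s := mul_mem (hn.w_Ms h hs _) (hn.w_Ms h hs _)

/-- the torus of `M_s` at an `SL₂`-node -/
theorem torus [Finite L] [Finite F] (hr : r.Prime) {t : L} (htB : t ∈ B) (htN : t ∈ N)
    (ht : t ∈ Ms U s) : ∃ c : Fˣ, t = stH x y (c : F) := by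
  have hst := hn.toSt
  have hw2 : stW x y 1 * stW x y 1 ∈ hst.hom.range := by
    rw [hst.w_sq]
    exact inv_mem ⟨-1, by rw [St.hom_apply, Units.val_neg, Units.val_one]⟩
  have hH : hst.hom.range ≤ B ⊓ N := by
    rintro _ ⟨c, rfl⟩
    exact ⟨hn.h_B h hs c.ne_zero, hn.h_N c.ne_zero⟩
  have hwP : stW x y 1 ∈ Par B s := Ms_le_Par h s (hn.w_Ms h hs 1)
  suffices h0 : t ∈ hst.hom.range by
    obtain ⟨c, hc⟩ := h0
    exact ⟨c, hc.symm⟩
  refine Ms_inf_T h hr hs (hn.wB 1 one_ne_zero) hH ?_ hw2 ?_ htB htN ht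
  · rintro _ ⟨c, rfl⟩
    exact ⟨c⁻¹, by rw [St.hom_apply, St.hom_apply, hst.wh c.ne_zero, Units.val_inv_eq_inv_val]⟩
  · intro u hu hK
    obtain ⟨a, ha⟩ := hn.span u hu
    have ha0 : a ≠ 0 := by
      rintro rfl
      rw [hst.x_zero, inv_one, one_mul] at ha
      exact hK ha
    have h1 := hst.wx 1 one_ne_zero a
    rw [inv_one, one_pow, one_mul, hst.y_eq, inv_neg, neg_neg, hst.w_eq a⁻¹] at h1
    have h2 : (stW x y 1 * stW x y 1)⁻¹ * x (-a⁻¹) * (stW x y 1 * stW x y 1) ∈ U := by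
      have := h.normal _ (inv_mem (hH hw2).1) _ (hn.xmem (-a⁻¹))
      rwa [inv_inv] at this
    refine ⟨x (-a⁻¹), hn.xmem _, stH x y a⁻¹ * (stW x y 1 * stW x y 1),
      mul_mem ⟨(Units.mk0 a ha0)⁻¹, by rw [St.hom_apply, Units.val_inv_eq_inv_val]; rfl⟩ hw2, _,
      mul_mem h2 (h.Kg_conj' hs hwP ha).1, ?_⟩
    calc stW x y 1 * u * stW x y 1 = (stW x y 1 * x a * (stW x y 1)⁻¹) * (stW x y 1 * stW x y 1) *
          ((stW x y 1)⁻¹ * ((x a)⁻¹ * u) * stW x y 1) := by group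
      _ = _ := by rw [h1]; group

end Node

end

section Cover
variable {F : Type w} [Field F] {E : Type u} [Group E] {G : Type v} [Group G]
  {p : ℕ} {π : E →* G} (c : CP p π) [Finite E] [hp : Fact p.Prime]
  {B N U : Subgroup G} {S : Set G}
include c

/-- nodes lift -/
theorem CP.node [CharP F p] (h : SB p B N U S) {s : G} {x y : F → G} (hn : Node B N U s x y)
    {s' : E} (hs' : π s' = s) : Node (B.comap π) (N.comap π) (liftS p π U) s'
      (fun a => liftE p π (x a)) (fun a => liftE p π (y a)) where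
  toSt := c.st hn.toSt
  xmem a := c.liftE_mem h.pgroup (hn.xmem a)
  span u hu := by
    obtain ⟨a, ha⟩ := hn.span _ ((c.mem_liftS h.pgroup).1 hu).1
    have h1 : (liftE p π (x a))⁻¹ * u ∈ liftS p π U :=
      mul_mem (inv_mem (c.liftE_mem h.pgroup (hn.xmem a))) hu
    refine ⟨a, mem_Kg.2 ⟨h1, (c.mem_liftS h.pgroup).2 ⟨?_, ((c.mem_liftS h.pgroup).1 h1).2.conj _⟩⟩⟩
    rw [map_mul, map_mul, map_mul, map_inv, map_inv, c.map_liftE (CP.isP_x hn.toSt a), hs']
    exact ha.2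
  wN t ht := by
    rw [mem_comap, c.map_stW hn.toSt]
    exact hn.wN t ht
  wB t ht := by
    rw [mem_comap, map_mul, map_inv, c.map_stW hn.toSt, hs']
    exact hn.wB t ht

lemma CP.map_Ms (h : SB p B N U S) {s' e : E} (he : e ∈ Ms (liftS p π U) s') :
    π e ∈ Ms U (π s') := by
  have : Ms (liftS p π U) s' ≤ (Ms U (π s')).comap π := by
    refine Ms_le (fun u hu => le_Ms U _ ((c.mem_liftS h.pgroup).1 hu).1) fun u hu => ?_
    rw [mem_comap, map_mul, map_mul, map_inv]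
    exact conj_mem_Ms ((c.mem_liftS h.pgroup).1 hu).1
  exact this he

/-- The torus of the cover is abelian if `T` is generated by one element and the tori of
`SL₂`-subgroups on which `T` acts diagonally. -/
theorem CP.sba [Finite F] [CharP F p] (h : SB p B N U S) {ι : Type*} {x y : ι → F → G}
    (hst : ∀ i, St (x i) (y i)) (hT : ∀ i t, t ≠ 0 → stH (x i) (y i) t ∈ B ⊓ N)
    (hact : ∀ τ ∈ B, τ ∈ N → ∀ i, ∃ a, a ≠ 0 ∧ (∀ s, τ * x i s * τ⁻¹ = x i (a * s)) ∧
      ∀ s, τ * y i s * τ⁻¹ = y i (a⁻¹ * s))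
    {g : G} (hg : g ∈ B ⊓ N)
    (hgen : B ⊓ N ≤ closure (insert g {τ | ∃ i t, t ≠ 0 ∧ τ = stH (x i) (y i) t})) :
    SBA p (B.comap π) (N.comap π) (liftS p π U) (π ⁻¹' S) where
  toSB := c.sb h
  prime := hp.out
  comm a haB haN b hbB hbN := by
    refine (c.comm_of_cyclic hg ?_ hgen ?_ (mem_inf.2 ⟨haB, haN⟩) (mem_inf.2 ⟨hbB, hbN⟩)).eq
    · rintro _ ⟨i, t, ht, rfl⟩
      exact hT i t ht
    · rintro e τ ⟨i, t, ht, he⟩ hτ
      obtain ⟨a, ha, h1, h2⟩ := hact _ hτ.1 hτ.2 i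
      exact c.comm_torus (hst i) ha ht h1 h2 he

lemma CP.map_normalClosure (h : SB p B N U S) :
    (normalClosure (liftS p π U : Set E)).map π = normalClosure (U : Set G) := by
  rw [Subgroup.map_normalClosure _ _ c.surj]
  congr 1
  ext u
  constructor
  · rintro ⟨e, he, rfl⟩
    exact ((c.mem_liftS h.pgroup).1 he).1
  · intro hu
    exact c.exists_liftS h.pgroup hu

omit [Finite E] hp in
/-- a representation of the cover on which `ker π ∩ E₀` acts trivially descends -/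
theorem CP.descend {M : Type*} [Monoid M] (ρ : E →* M) {E₀ : Subgroup E} (hE : E₀.map π = ⊤)
    (hker : ∀ z ∈ E₀, π z = 1 → ρ z = 1) : ∃ ρ' : G →* M, ∀ e ∈ E₀, ρ' (π e) = ρ e := by
  have hs : ∀ g : G, ∃ e ∈ E₀, π e = g := fun g => by
    have : g ∈ E₀.map π := by rw [hE]; exact mem_top g
    exact this
  choose σ hσ hσ' using hs
  have key : ∀ e ∈ E₀, ρ (σ (π e)) = ρ e := by
    intro e he
    obtain ⟨z, hz, e1⟩ := c.exists_ker (hσ' (π e))
    have hz0 : z ∈ E₀ := by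
      have := mul_mem (inv_mem he) (hσ (π e))
      rwa [e1, inv_mul_cancel_left] at this
    rw [e1, map_mul, hker z hz0 hz, mul_one]
  refine ⟨⟨⟨fun g => ρ (σ g), ?_⟩, fun a b => ?_⟩, key⟩
  · have := key 1 (one_mem _)
    rwa [map_one, map_one] at this
  · have := key _ (mul_mem (hσ a) (hσ b))
    rwa [map_mul, hσ', hσ', map_mul] at this

end Cover

section Char
variable {F : Type w} [Field F] {L : Type u} [Group L] {k : Type*} [Field k]
  {V : Type*} [AddCommGroup V] [Module k V] {ρ : Representation k L V}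

/-- characters of the multiplicative group of a finite field -/
lemma exists_exp [Finite F] (φ : F →+* k) (χ : Fˣ →* kˣ) :
    ∃ m : ℕ, 1 ≤ m ∧ m ≤ Nat.card F - 1 ∧ ∀ t : Fˣ, (χ t : k) = φ t ^ m := by
  classical
  obtain ⟨g, hg⟩ := IsCyclic.exists_generator (α := Fˣ)
  have hn : orderOf g = Nat.card F - 1 := by
    rw [orderOf_eq_card_of_forall_mem_zpowers hg, Nat.card_units]
  have hpos : 0 < orderOf g := orderOf_pos g
  have hprim : IsPrimitiveRoot (φ g) (orderOf g) := by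
    have h1 : IsPrimitiveRoot (g : F) (orderOf g) := by
      rw [← orderOf_units]
      exact IsPrimitiveRoot.orderOf _
    exact h1.map_of_injective φ.injective
  haveI : NeZero (orderOf g) := ⟨hpos.ne'⟩
  obtain ⟨i, hi, hi'⟩ := hprim.eq_pow_of_pow_eq_one (ξ := (χ g : k)) (by
    rw [← Units.val_pow_eq_pow_val, ← map_pow, pow_orderOf_eq_one, map_one, Units.val_one])
  have key : ∀ m : ℕ, φ g ^ m = χ g → ∀ t : Fˣ, (χ t : k) = φ t ^ m := by
    intro m hm t
    obtain ⟨j, rfl⟩ := (mem_powers_iff_mem_zpowers).2 (hg t)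
    simp only
    rw [map_pow, Units.val_pow_eq_pow_val, ← hm, Units.val_pow_eq_pow_val, map_pow, ← pow_mul,
      ← pow_mul, mul_comm]
  by_cases h0 : i = 0
  · refine ⟨orderOf g, hpos, hn.le, key _ ?_⟩
    rw [hprim.pow_eq_one, ← hi', h0, pow_zero]
  · exact ⟨i, Nat.pos_of_ne_zero h0, by omega, key i hi'⟩

lemma fix_Ms {U : Subgroup L} {s : L} {v : V} (hv : v ∈ P183CR.fixS ρ U)
    (hs : s ∈ P183CR.lineStab ρ v) {g : L} (hg : g ∈ Ms U s) : ρ g v = v := by
  let H : Subgroup L :=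
    { carrier := {g | ρ g v = v}
      one_mem' := by simp
      mul_mem' := fun {a b} ha hb => by
        show ρ (a * b) v = v
        rw [P183CR.rho_mul, hb, ha]
      inv_mem' := fun {a} ha => by
        show ρ a⁻¹ v = v
        conv_lhs => rw [← ha]
        rw [P183CR.rho_inv_rho] }
  refine (Ms_le (H := H) hv fun u hu => ?_) hg
  obtain ⟨c, hc⟩ := inv_mem hs
  show ρ (s * u * s⁻¹) v = v
  rw [P183CR.rho_mul, P183CR.rho_mul, hc, map_smul, hv u hu, ← hc, P183CR.rho_rho_inv]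

variable {r : ℕ} {B N U : Subgroup L} {S : Set L}

/-- exponents at a node -/
lemma Node.exists_exp [Finite F] {s : L} {x y : F → L} (hn : Node B N U s x y) (h : SB r B N U S)
    (hs : s ∈ S) (φ : F →+* k) {v : V} (hv0 : v ≠ 0) (hB : B ≤ P183CR.lineStab ρ v) :
    ∃ m : ℕ, 1 ≤ m ∧ m ≤ Nat.card F - 1 ∧
      ∀ t : F, t ≠ 0 → ρ (stH x y t) v = φ t ^ m • v := by
  have h1 : ∀ t : Fˣ, ∃ c : kˣ, ρ (stH x y t) v = (c : k) • v := fun t =>
    hB (hn.h_B h hs t.ne_zero)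
  choose χ hχ using h1
  have hinj : ∀ {c d : k}, c • v = d • v → c = d := fun hcd => smul_left_injective k hv0 hcd
  obtain ⟨m, h1, h2, h3⟩ := Def.exists_exp φ
    { toFun := χ
      map_one' := Units.ext (hinj (by
        rw [← hχ, Units.val_one, hn.toSt.h_one, map_one, Units.val_one, one_smul]; rfl))
      map_mul' := fun a b => Units.ext (hinj (by
        rw [← hχ, Units.val_mul, hn.toSt.h_mul a.ne_zero b.ne_zero, P183CR.rho_mul, hχ, map_smul,
          hχ, smul_smul, Units.val_mul, mul_comm])) }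
  refine ⟨m, h1, h2, fun t ht => ?_⟩
  have := hχ (Units.mk0 t ht)
  rw [show ((χ (Units.mk0 t ht) : kˣ) : k) = _ from h3 (Units.mk0 t ht)] at this
  exact this

/-- The character of `T ∩ O^{p'}` on `v` is determined by its values at the nodes outside the
stabiliser of the line. -/
theorem char_formula [Finite L] [Finite F] (h : SB r B N U S) (hr : r.Prime) {v : V}
    (hv : v ∈ P183CR.fixS ρ U) {ι : Type*} {s : ι → L} {x y : ι → F → L} (hs : ∀ i, s i ∈ S)
    (hn : ∀ i, Node B N U (s i) (x i) (y i)) {D : Set L}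
    (hD : ∀ s' ∈ D, s' ∈ P183CR.lineStab ρ v) (hS : ∀ s' ∈ S, s' ∈ D ∨ ∃ i, (s i)⁻¹ * s' ∈ B)
    (ψ : L → k) (hψ : ∀ a ∈ B, a ∈ N → ∀ b ∈ B, b ∈ N → ψ (a * b) = ψ a * ψ b)
    (hψ1 : ψ 1 = 1) (hψD : ∀ s' ∈ D, ∀ t ∈ B, t ∈ N → t ∈ Ms U s' → ψ t = 1)
    (hψh : ∀ i t, t ≠ 0 → ρ (stH (x i) (y i) t) v = ψ (stH (x i) (y i) t) • v)
    {τ : L} (hτB : τ ∈ B) (hτN : τ ∈ N) (hτ : τ ∈ normalClosure (U : Set L)) :
    ρ τ v = ψ τ • v := by
  rw [normalClosure_eq h hr] at hτ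
  have h1 := mem_T1_of_G0 h hr subset_rfl hτB hτN hτ
  let H : Subgroup L :=
    { carrier := {g | g ∈ B ∧ g ∈ N ∧ ρ g v = ψ g • v}
      one_mem' := ⟨one_mem _, one_mem _, by rw [hψ1]; simp⟩
      mul_mem' := by
        rintro a b ⟨ha, ha', ha''⟩ ⟨hb, hb', hb''⟩
        refine ⟨mul_mem ha hb, mul_mem ha' hb', ?_⟩
        rw [P183CR.rho_mul, hb'', map_smul, ha'', smul_smul, hψ a ha ha' b hb hb', mul_comm]
      inv_mem' := by
        rintro a ⟨ha, ha', ha''⟩
        refine ⟨inv_mem ha, inv_mem ha', ?_⟩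
        have h2 := hψ a⁻¹ (inv_mem ha) (inv_mem ha') a ha ha'
        rw [inv_mul_cancel, hψ1] at h2
        conv_rhs => rw [← P183CR.rho_inv_rho ρ a v, ha'', map_smul, smul_smul, ← h2, one_smul] }
  have hle : T1 B N U S ≤ H := by
    refine (closure_le _).2 ?_
    rintro t ⟨htB, htN, s', hs', ht⟩
    refine ⟨htB, htN, ?_⟩
    rcases hS s' hs' with h2 | ⟨i, h2⟩
    · rw [hψD s' h2 t htB htN ht, one_smul, fix_Ms hv (hD s' h2) ht]
    · obtain ⟨c, rfl⟩ := (hn i).torus h (hs i) hr htB htN (Ms_congr h h2 ht)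
      exact hψh i c c.ne_zero
  exact (hle h1).2.2

end Char

section Lift
variable {F : Type w} [Field F] {E : Type u} [Group E] {G : Type v} [Group G]
  {p : ℕ} {π : E →* G} (c : CP p π) [Finite E] [hp : Fact p.Prime]
  {B N U : Subgroup G} {S : Set G} {k : Type*} [Field k]
  {V : Type*} [AddCommGroup V] [Module k V] {ρ : Representation k E V}
include c

/-- **Character formula on a cover.** The nodes `s i` are `SL₂(F)`-nodes with fundamental weights
`lam i`, all other nodes (the set `D`) stabilise the line of `v`. -/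
theorem CP.char_formula [Finite F] [CharP F p] (h : SB p B N U S) (φ : F →+* k) {v : V}
    (hv0 : v ≠ 0) (hv : v ∈ P183CR.fixS ρ (liftS p π U))
    (hB : B.comap π ≤ P183CR.lineStab ρ v) {ι : Type*} [Fintype ι] {s : ι → G}
    {x y : ι → F → G} (hs : ∀ i, s i ∈ S) (hn : ∀ i, Node B N U (s i) (x i) (y i)) {D : Set G}
    (hD : ∀ e, π e ∈ D → e ∈ P183CR.lineStab ρ v) (hS : ∀ s' ∈ S, s' ∈ D ∨ ∃ i, (s i)⁻¹ * s' ∈ B)
    (lam : ι → G → F) (hmul : ∀ i, ∀ a ∈ B, a ∈ N → ∀ b ∈ B, b ∈ N → lam i (a * b) = lam i a * lam i b)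
    (hone : ∀ i, lam i 1 = 1) (hlD : ∀ i, ∀ s' ∈ D, ∀ t ∈ B, t ∈ N → t ∈ Ms U s' → lam i t = 1)
    (hii : ∀ i t, t ≠ 0 → lam i (stH (x i) (y i) t) = t)
    (hij : ∀ i j, i ≠ j → ∀ t, t ≠ 0 → lam i (stH (x j) (y j) t) = 1) :
    ∃ m : ι → ℕ, (∀ i, 1 ≤ m i ∧ m i ≤ Nat.card F - 1) ∧
      ∀ τ : E, π τ ∈ B → π τ ∈ N → τ ∈ normalClosure (liftS p π U : Set E) →
        ρ τ v = (∏ i, φ (lam i (π τ)) ^ m i) • v := by
  classical
  choose s' hs' using fun i => c.surj (s i)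
  have hs'' : ∀ i, s' i ∈ π ⁻¹' S := fun i => by rw [Set.mem_preimage, hs']; exact hs i
  have hn' := fun i => c.node h (hn i) (hs' i)
  choose m hm1 hm2 hm3 using fun i => (hn' i).exists_exp (c.sb h) (hs'' i) φ hv0 hB
  refine ⟨m, fun i => ⟨hm1 i, hm2 i⟩, fun τ h1 h2 h3 => ?_⟩
  refine Def.char_formula (c.sb h) hp.out hv hs'' hn' (D := π ⁻¹' D) hD ?_
    (fun e => ∏ i, φ (lam i (π e)) ^ m i) ?_ ?_ ?_ ?_ h1 h2 h3
  · intro e he
    rcases hS _ he with h4 | ⟨i, h4⟩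
    · exact Or.inl h4
    · refine Or.inr ⟨i, ?_⟩
      rwa [mem_comap, map_mul, map_inv, hs']
  · intro a ha ha' b hb hb'
    rw [← Finset.prod_mul_distrib]
    refine Finset.prod_congr rfl fun i _ => ?_
    rw [map_mul, hmul i _ ha ha' _ hb hb', map_mul, mul_pow]
  · refine Finset.prod_eq_one fun i _ => ?_
    rw [map_one, hone, map_one, one_pow]
  · intro e he t ht ht' ht''
    refine Finset.prod_eq_one fun i _ => ?_
    rw [hlD i _ he _ ht ht' (c.map_Ms h ht''), map_one, one_pow]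
  · intro i t ht
    rw [hm3 i t ht, c.map_stH (hn i).toSt, Finset.prod_eq_single i, hii i t ht]
    · intro j _ hj
      rw [hij j i hj t ht, map_one, one_pow]
    · intro h4
      exact absurd (Finset.mem_univ i) h4

/-- If `ker π ∩ O^{p'}` fixes a nonzero vector of an irreducible module of the cover of a group
generated by `p`-elements, then the module comes from an irreducible module of the group. -/
theorem CP.exists_linear (h : SB p B N U S) (hG : normalClosure (U : Set G) = ⊤)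
    (hρ : P183CR.Irr ρ) (hz : ∀ z, π z = 1 → ∃ a : k, ∀ w, ρ z w = a • w) {v : V} (hv0 : v ≠ 0)
    (hker : ∀ z ∈ normalClosure (liftS p π U : Set E), π z = 1 → ρ z v = v) :
    ∃ ρ' : Representation k G V, P183CR.Irr ρ' ∧
      (∀ e ∈ normalClosure (liftS p π U : Set E), ρ' (π e) = ρ e) ∧
      ∀ e, ∃ a : k, ∀ w, ρ e w = a • ρ' (π e) w := by
  have hE := c.map_normalClosure h
  rw [hG] at hE
  obtain ⟨ρ', hρ'⟩ := c.descend ρ hE fun z hz0 hz1 => by
    obtain ⟨a, ha⟩ := hz z hz1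
    have h1 := hker z hz0 hz1
    rw [ha] at h1
    have h2 : a = 1 := smul_left_injective k hv0 (h1.trans (one_smul k v).symm)
    ext w
    rw [ha, h2, one_smul]
    rfl
  have key : ∀ e, ∃ a : k, ∀ w, ρ e w = a • ρ' (π e) w := by
    intro e
    have : π e ∈ (normalClosure (liftS p π U : Set E)).map π := by rw [hE]; exact mem_top _
    obtain ⟨e', he', he''⟩ := this
    obtain ⟨z, hz1, rfl⟩ := c.exists_ker he''.symm
    obtain ⟨a, ha⟩ := hz z hz1
    refine ⟨a, fun w => ?_⟩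
    rw [← he'', hρ' e' he', P183CR.rho_mul, ha, map_smul]
  refine ⟨ρ', ⟨hρ.1, fun W hW => hρ.2 W fun e w hw => ?_⟩, hρ', key⟩
  obtain ⟨a, ha⟩ := key e
  rw [ha]
  exact W.smul_mem a (hW _ w hw)

end Lift

end Vale.Agent.P183K.Def
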