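import Vale.Agent.P183K.Def.Good

/-!
# P183K, defining characteristic, part 3: the theorem of Curtis and Richen (helper2)

For an irreducible representation `V` of a finite group with a split BN-pair of characteristic `p`
over an algebraically closed field of characteristic `p` on which `T = B ∩ N` acts commutatively,
`V^U` is a line `k v`, `V = k[U] n₀ v`, and for the `U`-invariant functional `f` one has
`f (g v) ≠ 0` iff `g ∈ U n₀ P`, where `P` is the stabiliser of the line.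
-/

set_option autoImplicit false
set_option linter.all false

namespace Vale.Agent.P183K.Def

open Subgroup Vale.Agent.P240.H195

open scoped Classical

universe u v w

section
variable {L : Type u} [Group L] {k : Type v} [Field k] {V : Type w} [AddCommGroup V] [Module k V]

/-- `W` is invariant under `H` -/
def Inv (ρ : Representation k L V) (H : Subgroup L) (W : Submodule k V) : Prop :=
  ∀ g ∈ H, ∀ w ∈ W, ρ g w ∈ W

/-- `M` is an irreducible `H`-submodule -/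
def IrrOn (ρ : Representation k L V) (H : Subgroup L) (M : Submodule k V) : Prop :=
  M ≠ ⊥ ∧ Inv ρ H M ∧ ∀ W : Submodule k V, W ≤ M → Inv ρ H W → W = ⊥ ∨ W = M

/-- irreducible representation -/
def Irr (ρ : Representation k L V) : Prop := IrrOn ρ ⊤ ⊤

/-- `T = B ∩ N` acts commutatively -/
def TComm (ρ : Representation k L V) (B N : Subgroup L) : Prop :=
  ∀ t ∈ B, t ∈ N → ∀ t' ∈ B, t' ∈ N → ∀ x, ρ t (ρ t' x) = ρ t' (ρ t x)

/-- the stabiliser of the line through `v` -/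
def lineStab (ρ : Representation k L V) (v : V) : Subgroup L where
  carrier := {g | ∃ c : k, ρ g v = c • v}
  one_mem' := ⟨1, by rw [rho_one, one_smul]⟩
  mul_mem' := by
    rintro a b ⟨c, hc⟩ ⟨d, hd⟩
    exact ⟨d * c, by rw [rho_mul, hd, map_smul, hc, smul_smul]⟩
  inv_mem' := by
    rintro a ⟨c, hc⟩
    by_cases hv : v = 0
    · exact ⟨0, by rw [hv, map_zero, smul_zero]⟩
    · have hc0 := eig_ne_zero ρ hv hc
      refine ⟨c⁻¹, ?_⟩
      have h1 := rho_inv_self ρ a v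
      rw [hc, map_smul] at h1
      conv_rhs => rw [← h1]
      rw [smul_smul, inv_mul_cancel₀ hc0, one_smul]

lemma mem_lineStab {ρ : Representation k L V} {v : V} {g : L} :
    g ∈ lineStab ρ v ↔ ∃ c : k, ρ g v = c • v := Iff.rfl

/-- the fixed space -/
def fixSub (ρ : Representation k L V) (U : Subgroup L) : Submodule k V where
  carrier := {v | Fix ρ U v}
  zero_mem' := fun u _ => map_zero _
  add_mem' := fun {a b} ha hb u hu => by rw [map_add, ha u hu, hb u hu]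
  smul_mem' := fun c a ha u hu => by rw [map_smul, ha u hu]

lemma mem_fixSub {ρ : Representation k L V} {U : Subgroup L} {v : V} :
    v ∈ fixSub ρ U ↔ Fix ρ U v := Iff.rfl

/-- the span of `H g v` -/
def orbSpan (ρ : Representation k L V) (H : Subgroup L) (v : V) : Submodule k V :=
  Submodule.span k {x | ∃ g ∈ H, x = ρ g v}

variable {ρ : Representation k L V}

lemma mem_orbSpan {H : Subgroup L} {v : V} {g : L} (hg : g ∈ H) : ρ g v ∈ orbSpan ρ H v :=
  Submodule.subset_span ⟨g, hg, rfl⟩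

lemma self_mem_orbSpan (H : Subgroup L) (v : V) : v ∈ orbSpan ρ H v := by
  have := mem_orbSpan (ρ := ρ) (v := v) (one_mem H)
  rwa [rho_one] at this

lemma map_span_mem {X : Set V} {M : Submodule k V} (f : V →ₗ[k] V) (hX : ∀ x ∈ X, f x ∈ M) {y : V}
    (hy : y ∈ Submodule.span k X) : f y ∈ M := by
  have : Submodule.span k X ≤ M.comap f := Submodule.span_le.2 hX
  exact this hy

lemma inv_orbSpan (H : Subgroup L) (v : V) : Inv ρ H (orbSpan ρ H v) := by
  intro g hg w hw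
  refine map_span_mem _ ?_ hw
  rintro _ ⟨a, ha, rfl⟩
  rw [← rho_mul]
  exact mem_orbSpan (mul_mem hg ha)

lemma orbSpan_le {H : Subgroup L} {v : V} {W : Submodule k V} (hW : Inv ρ H W) (hv : v ∈ W) :
    orbSpan ρ H v ≤ W := by
  refine Submodule.span_le.2 ?_
  rintro _ ⟨a, ha, rfl⟩
  exact hW a ha v hv

lemma Inv.mono {H K : Subgroup L} {W : Submodule k V} (hW : Inv ρ H W) (hK : K ≤ H) : Inv ρ K W :=
  fun g hg => hW g (hK hg)

lemma Inv.inf {H : Subgroup L} {W W' : Submodule k V} (hW : Inv ρ H W) (hW' : Inv ρ H W') :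
    Inv ρ H (W ⊓ W') := fun g hg w hw => ⟨hW g hg w hw.1, hW' g hg w hw.2⟩

lemma Irr.eq_top (hi : Irr ρ) {W : Submodule k V} (hW : Inv ρ ⊤ W) (hne : W ≠ ⊥) : W = ⊤ :=
  (hi.2.2 W le_top hW).resolve_left hne

lemma Irr.orbSpan_top (hi : Irr ρ) {v : V} (hv : v ≠ 0) : orbSpan ρ ⊤ v = ⊤ :=
  hi.eq_top (inv_orbSpan ⊤ v) fun h0 => hv (by
    have := self_mem_orbSpan (ρ := ρ) ⊤ v
    rwa [h0, Submodule.mem_bot] at this)

lemma dual_apply' (g : L) (f : Module.Dual k V) (x : V) : ρ.dual g f x = f (ρ g⁻¹ x) := by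
  rw [Representation.dual_apply]
  rfl

lemma Irr.dual [FiniteDimensional k V] (hi : Irr ρ) : Irr ρ.dual := by
  refine ⟨?_, fun g _ w _ => Submodule.mem_top, fun W _ hW => ?_⟩
  · intro h0
    apply hi.1
    rw [eq_bot_iff]
    intro x _
    rw [Submodule.mem_bot]
    refine (Module.forall_dual_apply_eq_zero_iff k x).1 fun f => ?_
    have : f ∈ (⊥ : Submodule k (Module.Dual k V)) := by rw [← h0]; exact Submodule.mem_top
    rw [Submodule.mem_bot] at this
    rw [this, LinearMap.zero_apply]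
  · have h1 : Inv ρ ⊤ W.dualCoannihilator := by
      intro g _ x hx
      rw [Submodule.mem_dualCoannihilator] at hx ⊢
      intro f hf
      have := hx _ (hW g⁻¹ (mem_top _) f hf)
      rwa [dual_apply', inv_inv] at this
    rcases hi.2.2 _ le_top h1 with h2 | h2
    · right
      rw [← Subspace.dualCoannihilator_dualAnnihilator_eq (W := W), h2,
        Submodule.dualAnnihilator_bot]
    · left
      rw [← Subspace.dualCoannihilator_dualAnnihilator_eq (W := W), h2,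
        Submodule.dualAnnihilator_top]

lemma TComm.dual {B N : Subgroup L} (hT : TComm ρ B N) : TComm ρ.dual B N := by
  intro t h1 h2 t' h3 h4 f
  ext x
  rw [dual_apply', dual_apply', dual_apply', dual_apply',
    hT _ (inv_mem h1) (inv_mem h2) _ (inv_mem h3) (inv_mem h4)]

/-- a nonzero subspace invariant under a finite `p`-group contains a nonzero fixed vector -/
lemma exists_fix_of {p : ℕ} [Fact p.Prime] [CharP k p] {U : Subgroup L} [Finite U]
    (hU : IsPGroup p U) {W : Submodule k V} (hW : Inv ρ U W) (hne : W ≠ ⊥) :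
    ∃ w ∈ W, w ≠ 0 ∧ Fix ρ U w := by
  obtain ⟨w, hw, h0, hfix⟩ := Vale.P179.H875.Perm.exists_fixed hU (ρ.comp U.subtype) W
    (fun g w hw => hW g g.2 w hw) hne
  exact ⟨w, hw, h0, fun u hu => hfix ⟨u, hu⟩⟩

variable [Finite L] {B N U : Subgroup L} {S : Set L} {p : ℕ} [hp : Fact p.Prime] [CharP k p]
  (h : SB p B N U S)
include h

/-- downward induction along the Weyl group -/
lemma down_ind {P : L → Prop} (hlong : ∀ w, h.toBN0.Long w → P w)
    (hstep : ∀ n ∈ N, ∀ s ∈ S, RG B n s → P (n * s) → P n) : ∀ n ∈ N, P n := by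
  obtain ⟨w, hw⟩ := h.toBN0.exists_long
  obtain ⟨l, hl⟩ := h.exists_len hw.1
  have key : ∀ j : ℕ, ∀ i n, h.toBN0.Len i n → i + j = l → P n := by
    intro j
    induction j with
    | zero =>
      intro i n hn hi
      refine hlong n ⟨h.wd_mem hn.1, fun s hs hr => ?_⟩
      obtain ⟨j, hj, -⟩ := h.suffix hw hl _ _ (h.len_mul hn hs hr)
      omega
    | succ j ih =>
      intro i n hn hi
      by_cases hL : h.toBN0.Long n
      · exact hlong n hL
      · have hnN := h.wd_mem hn.1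
        have : ∃ s ∈ S, RG B n s := by
          by_contra hcon
          exact hL ⟨hnN, fun s hs hr => hcon ⟨s, hs, hr⟩⟩
        obtain ⟨s, hs, hr⟩ := this
        exact hstep n hnN s hs hr (ih (i + 1) _ (h.len_mul hn hs hr) (by omega))
  intro n hn
  obtain ⟨i, hi⟩ := h.exists_len hn
  obtain ⟨j, hj, -⟩ := h.suffix hw hl _ _ hi
  exact key j i n hi (by omega)

lemma inv_orbSpan_B {v : V} (he : Eig ρ B v) {n : L} (hn : n ∈ N) :
    Inv ρ B (orbSpan ρ U (ρ n v)) := by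
  intro b hb w hw
  refine map_span_mem _ ?_ hw
  rintro _ ⟨a, ha, rfl⟩
  obtain ⟨u, hu, t, htB, htN, e⟩ := h.split (b * a) (mul_mem hb (h.le ha))
  obtain ⟨c, hc⟩ := he _ (h.norm' hn htB htN)
  have e2 : t * n = n * (n⁻¹ * t * n) := by group
  rw [← rho_mul, e, rho_mul, ← rho_mul ρ t, e2, rho_mul, hc, map_smul, map_smul]
  exact Submodule.smul_mem _ _ (mem_orbSpan hu)

lemma mem_of_dc {v : V} (he : Eig ρ B v) {M : Submodule k V} (hM : Inv ρ B M) {n g : L}
    (hn : ρ n v ∈ M) (hg : DC B n g) : ρ g v ∈ M := by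
  obtain ⟨a, ha, b, hb, rfl⟩ := hg
  obtain ⟨c, hc⟩ := he b hb
  rw [rho_mul, hc, map_smul, rho_mul]
  exact M.smul_mem _ (hM a ha _ hn)

/-- the module generated by a good vector is cyclic over `U` -/
theorem orbSpan_long {v : V} (he : Eig ρ B v) (hg : ∀ s ∈ S, v ∈ cell ρ B s v) {n₀ : L}
    (hn₀ : h.toBN0.Long n₀) : orbSpan ρ ⊤ v = orbSpan ρ U (ρ n₀ v) := by
  have hM := inv_orbSpan_B h he hn₀.1
  have key : ∀ n ∈ N, ρ n v ∈ orbSpan ρ U (ρ n₀ v) := by
    refine down_ind h ?_ ?_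
    · intro w hw
      exact mem_of_dc h he hM (self_mem_orbSpan _ _) (DC_of_inv (h.long_unique hn₀ hw))
    · intro n hn s hs hr ih
      refine map_span_mem _ ?_ (hg s hs)
      rintro _ ⟨g, ⟨a, ha, b, hb, rfl⟩, rfl⟩
      rw [← rho_mul]
      refine mem_of_dc h he hM ih ?_
      have e : n * (a * s * b) = n * a * s * b := by group
      rw [e]
      exact (hr a ha).right hb
  apply le_antisymm
  · refine Submodule.span_le.2 ?_
    rintro _ ⟨g, -, rfl⟩
    obtain ⟨n, hn, hd⟩ := h.bruhat g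
    exact mem_of_dc h he hM (key n hn) hd
  · refine Submodule.span_le.2 ?_
    rintro _ ⟨g, -, rfl⟩
    rw [← rho_mul]
    exact mem_orbSpan (mem_top _)

lemma inv_fixSub : Inv ρ B (fixSub ρ U) := fun b hb _ hw =>
  fix_rho hw fun _ hx => h.norm_U' hb hx

variable [IsAlgClosed k] [FiniteDimensional k V]

lemma exists_eig (hT : TComm ρ B N) {W : Submodule k V} (hW : Inv ρ B W) (hne : W ≠ ⊥) :
    ∃ v ∈ W, v ≠ 0 ∧ Fix ρ U v ∧ Eig ρ B v := by
  obtain ⟨w, hw, hw0, hwf⟩ := exists_fix_of h.pgroup (hW.mono h.le) hne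
  have hex : ∃ m, ∃ X : Submodule k V, X ≤ W ⊓ fixSub ρ U ∧ X ≠ ⊥ ∧ Inv ρ B X ∧
      Module.finrank k X = m :=
    ⟨_, W ⊓ fixSub ρ U, le_rfl, (Submodule.ne_bot_iff _).2 ⟨w, ⟨hw, hwf⟩, hw0⟩,
      hW.inf (inv_fixSub h), rfl⟩
  obtain ⟨X, hX1, hX2, hX3, hX4⟩ := Nat.find_spec hex
  obtain ⟨x, hx, hx0⟩ := (Submodule.ne_bot_iff _).1 hX2
  refine ⟨x, (hX1 hx).1, hx0, (hX1 hx).2, fun b hb => ?_⟩
  obtain ⟨u, hu, t, htB, htN, rfl⟩ := h.split b hb
  haveI : Nontrivial X := Submodule.nontrivial_iff_ne_bot.2 hX2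
  obtain ⟨c, hc⟩ := Module.End.exists_eigenvalue ((ρ t).restrict (hX3 t htB))
  obtain ⟨y, hy⟩ := hc.exists_hasEigenvector
  have hy1 : ρ t (y : V) = c • (y : V) := by
    have := congrArg Subtype.val hy.apply_eq_smul
    exact this
  let E : Submodule k V := X ⊓ Module.End.eigenspace (ρ t) c
  have hE : Inv ρ B E := by
    intro b hb z hz
    refine ⟨hX3 b hb z hz.1, ?_⟩
    obtain ⟨u', hu', t', ht'B, ht'N, rfl⟩ := h.split b hb
    have hz2 : ρ t z = c • z := Module.End.mem_eigenspace_iff.1 hz.2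
    have h1 : ρ (u' * t') z = ρ t' z := by
      rw [rho_mul]
      exact (hX1 (hX3 t' ht'B z hz.1)).2 u' hu'
    change ρ (u' * t') z ∈ Module.End.eigenspace (ρ t) c
    rw [Module.End.mem_eigenspace_iff, h1, hT t htB htN t' ht'B ht'N, hz2, map_smul]
  have hEne : E ≠ ⊥ := (Submodule.ne_bot_iff _).2
    ⟨y, ⟨y.2, Module.End.mem_eigenspace_iff.2 hy1⟩, fun h0 => hy.2 (Subtype.ext h0)⟩
  have hle : Nat.find hex ≤ Module.finrank k E :=
    Nat.find_min' hex ⟨E, le_trans inf_le_left hX1, hEne, hE, rfl⟩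
  have hEX : E = X := Submodule.eq_of_le_of_finrank_le inf_le_left (by rw [hX4]; exact hle)
  have hxE : x ∈ E := by rw [hEX]; exact hx
  refine ⟨c, ?_⟩
  rw [rho_mul, Module.End.mem_eigenspace_iff.1 hxE.2, map_smul, (hX1 hx).2 u hu]

/-- an irreducible module is cyclic over `U` -/
theorem exists_cyclic (hi : Irr ρ) (hT : TComm ρ B N) :
    ∃ v, v ≠ 0 ∧ Fix ρ U v ∧ Eig ρ B v ∧ (∀ s ∈ S, v ∈ cell ρ B s v) ∧
      ∀ n₀, h.toBN0.Long n₀ → orbSpan ρ U (ρ n₀ v) = ⊤ := by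
  obtain ⟨v₀, -, h0, hf, he⟩ := exists_eig h hT (W := ⊤) (fun _ _ _ _ => Submodule.mem_top) hi.1
  obtain ⟨n, hn, h1, h2⟩ := exists_good h h0 hf he
  refine ⟨_, h1, Tn_fix hf n, Tn_eig h hf he hn, h2, fun n₀ hn₀ => ?_⟩
  rw [← orbSpan_long h (Tn_eig h hf he hn) h2 hn₀, hi.orbSpan_top h1]

/-- **Curtis-Richen**: `V^U` is at most a line -/
theorem fix_unique (hi : Irr ρ) (hT : TComm ρ B N) {v w : V} (hv : Fix ρ U v) (hv0 : v ≠ 0)
    (hw : Fix ρ U w) : ∃ c : k, w = c • v := by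
  obtain ⟨f, -, -, -, -, hf⟩ := exists_cyclic h hi.dual hT.dual
  obtain ⟨n₀, hn₀⟩ := h.toBN0.exists_long
  have key : ∀ x, Fix ρ U x → ρ.dual n₀ f x = 0 → x = 0 := by
    intro x hx h0
    refine (Module.forall_dual_apply_eq_zero_iff k x).1 fun φ => ?_
    have h1 : φ ∈ orbSpan ρ.dual U (ρ.dual n₀ f) := by rw [hf n₀ hn₀]; exact Submodule.mem_top
    have h2 : orbSpan ρ.dual U (ρ.dual n₀ f) ≤ LinearMap.ker (Module.Dual.eval k V x) := by
      refine Submodule.span_le.2 ?_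
      rintro _ ⟨u, hu, rfl⟩
      change ρ.dual u (ρ.dual n₀ f) x = 0
      rw [dual_apply', hx _ (inv_mem hu), h0]
    exact h2 h1
  have hne : ρ.dual n₀ f v ≠ 0 := fun h0 => hv0 (key v hv h0)
  refine ⟨ρ.dual n₀ f w / ρ.dual n₀ f v, ?_⟩
  rw [← sub_eq_zero]
  refine key _ ((fixSub ρ U).sub_mem hw ((fixSub ρ U).smul_mem _ hv)) ?_
  rw [map_sub, map_smul, smul_eq_mul, div_mul_cancel₀ _ hne, sub_self]

theorem exists_fix (hi : Irr ρ) : ∃ v, v ≠ 0 ∧ Fix ρ U v := by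
  obtain ⟨v, -, h0, hf⟩ := exists_fix_of (ρ := ρ) h.pgroup (W := ⊤)
    (fun _ _ _ _ => Submodule.mem_top) hi.1
  exact ⟨v, h0, hf⟩

variable (hi : Irr ρ) (hT : TComm ρ B N) {v : V} (hv : Fix ρ U v) (hv0 : v ≠ 0)
include hi hT hv hv0

theorem eig_of_fix : Eig ρ B v := fun b hb => fix_unique h hi hT hv hv0 (inv_fixSub h b hb v hv)

theorem le_lineStab : B ≤ lineStab ρ v := eig_of_fix h hi hT hv hv0

/-- every nonzero `U`-invariant subspace contains `v` -/
theorem mem_of_inv {W : Submodule k V} (hW : Inv ρ U W) (hne : W ≠ ⊥) : v ∈ W := by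
  obtain ⟨w, hw, h0, hf⟩ := exists_fix_of h.pgroup hW hne
  obtain ⟨c, rfl⟩ := fix_unique h hi hT hf h0 hv
  exact W.smul_mem _ hw

theorem good_of_fix {s : L} (hs : s ∈ S) : v ∈ cell ρ B s v := by
  obtain ⟨w, h0, hf, -, hg, -⟩ := exists_cyclic h hi hT
  obtain ⟨c, rfl⟩ := fix_unique h hi hT hv hv0 hf
  have hc : c ≠ 0 := by
    rintro rfl
    exact h0 (zero_smul _ _)
  have h1 : cell ρ B s (c • v) ≤ cell ρ B s v := by
    refine Submodule.span_le.2 ?_
    rintro _ ⟨g, hg, rfl⟩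
    rw [map_smul]
    exact Submodule.smul_mem _ _ (Submodule.subset_span ⟨g, hg, rfl⟩)
  have h2 := (cell ρ B s v).smul_mem c⁻¹ (h1 (hg s hs))
  rwa [smul_smul, inv_mul_cancel₀ hc, one_smul] at h2

/-- `V = k[U] n₀ v` -/
theorem orbSpan_eq_top {n₀ : L} (hn₀ : h.toBN0.Long n₀) : orbSpan ρ U (ρ n₀ v) = ⊤ := by
  rw [← orbSpan_long h (eig_of_fix h hi hT hv hv0) (fun s hs => good_of_fix h hi hT hv hv0 hs) hn₀,
    hi.orbSpan_top hv0]

variable {f : Module.Dual k V} (hf : ∀ u ∈ U, ∀ x, f (ρ u x) = f x)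
include hf

theorem long_ne_zero (hf0 : f ≠ 0) {n₀ : L} (hn₀ : h.toBN0.Long n₀) : f (ρ n₀ v) ≠ 0 := by
  intro h0
  apply hf0
  ext x
  have h1 : x ∈ orbSpan ρ U (ρ n₀ v) := by
    rw [orbSpan_eq_top h hi hT hv hv0 hn₀]; exact Submodule.mem_top
  have h2 : orbSpan ρ U (ρ n₀ v) ≤ LinearMap.ker f := by
    refine Submodule.span_le.2 ?_
    rintro _ ⟨u, hu, rfl⟩
    change f _ = 0
    rw [hf u hu, h0]
  exact h2 h1

theorem mem_stab_of_rg {n s : L} (hn : n ∈ N) (hs : s ∈ S) (hr : RG B n s) (hne : f (ρ n v) ≠ 0) :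
    s ∈ lineStab ρ v := by
  have hM := inv_orbSpan (ρ := ρ) (Par B s) v
  have hK : ∀ z ∈ Kg U s, ∀ x ∈ orbSpan ρ (Par B s) v, ρ z x = x := by
    intro z hz x hx
    have h2 : orbSpan ρ (Par B s) v ≤ LinearMap.ker (ρ z - LinearMap.id) := by
      refine Submodule.span_le.2 ?_
      rintro _ ⟨g, hg, rfl⟩
      change ρ z (ρ g v) - ρ g v = 0
      have e : z * g = g * (g⁻¹ * z * g) := by group
      rw [← rho_mul, e, rho_mul, hv _ (h.Kg_conj' hs hg hz).1, sub_self]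
    exact sub_eq_zero.1 (h2 hx)
  let W : Submodule k V := orbSpan ρ (Par B s) v ⊓ LinearMap.ker (f ∘ₗ ρ n)
  have hW : Inv ρ U W := by
    intro u hu x hx
    refine ⟨hM u (le_Par (h.le hu)) x hx.1, ?_⟩
    obtain ⟨y, hy, hny, hyu⟩ := fact_right h hp.out hn hs hr hu
    have h1 : f (ρ n x) = 0 := hx.2
    change f (ρ n (ρ u x)) = 0
    have e : n * u = (n * y * n⁻¹) * n * (y⁻¹ * u) := by group
    rw [← rho_mul, e, rho_mul, hK _ hyu x hx.1, rho_mul, hf _ hny, h1]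
  have hW0 : W = ⊥ := by
    by_contra hcon
    exact hne (mem_of_inv h hi hT hv hv0 hW hcon).2
  have h3 : ρ s v - (f (ρ n (ρ s v)) / f (ρ n v)) • v ∈ W := by
    refine ⟨Submodule.sub_mem _ (mem_orbSpan self_mem_Par)
      (Submodule.smul_mem _ _ (self_mem_orbSpan _ _)), ?_⟩
    change f (ρ n _) = 0
    rw [map_sub, map_sub, map_smul, map_smul, smul_eq_mul, div_mul_cancel₀ _ hne, sub_self]
  rw [hW0, Submodule.mem_bot, sub_eq_zero] at h3
  exact ⟨_, h3⟩

theorem mem_stab_of_ne {n₀ : L} (hn₀ : h.toBN0.Long n₀) :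
    ∀ n ∈ N, f (ρ n v) ≠ 0 → n₀⁻¹ * n ∈ lineStab ρ v := by
  refine down_ind h ?_ ?_
  · intro w hw _
    exact le_lineStab h hi hT hv hv0 (h.long_unique hn₀ hw)
  · intro n hn s hs hr ih hne
    have h1 := mem_stab_of_rg h hi hT hv hv0 hf hn hs hr hne
    obtain ⟨c, hc⟩ := h1
    have h2 : f (ρ (n * s) v) ≠ 0 := by
      rw [rho_mul, hc, map_smul, map_smul, smul_eq_mul]
      exact mul_ne_zero (eig_ne_zero ρ hv0 hc) hne
    have h3 := mul_mem (ih h2) (inv_mem (show s ∈ lineStab ρ v from ⟨c, hc⟩))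
    have e : n₀⁻¹ * (n * s) * s⁻¹ = n₀⁻¹ * n := by group
    rwa [e] at h3

/-- **the big cell**: `f (g v) ≠ 0` iff `g ∈ U n₀ P`, `P` the stabiliser of the line `k v` -/
theorem ne_zero_iff (hf0 : f ≠ 0) {n₀ : L} (hn₀ : h.toBN0.Long n₀) (g : L) :
    f (ρ g v) ≠ 0 ↔ ∃ u ∈ U, ∃ y ∈ lineStab ρ v, g = u * n₀ * y := by
  constructor
  · intro hne
    obtain ⟨n, hn, a, ha, b, hb, rfl⟩ := h.bruhat g
    obtain ⟨u, hu, t, htB, htN, rfl⟩ := h.split a ha
    obtain ⟨c, hc⟩ := eig_of_fix h hi hT hv hv0 b hb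
    have h1 : f (ρ (t * n) v) ≠ 0 := by
      intro h0
      apply hne
      have e : u * t * n * b = u * (t * n * b) := by group
      rw [e, rho_mul, hf u hu, rho_mul, hc, map_smul, map_smul, h0, smul_zero]
    have h2 := mem_stab_of_ne h hi hT hv hv0 hf hn₀ _ (mul_mem htN hn) h1
    refine ⟨u, hu, _, mul_mem h2 (le_lineStab h hi hT hv hv0 hb), ?_⟩
    group
  · rintro ⟨u, hu, y, ⟨c, hc⟩, rfl⟩
    rw [rho_mul, hc, map_smul, map_smul, rho_mul, hf u hu, smul_eq_mul]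
    exact mul_ne_zero (eig_ne_zero ρ hv0 hc) (long_ne_zero h hi hT hv hv0 hf hf0 hn₀)

end

end Vale.Agent.P183K.Def
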