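import Vale.Agent.P183K.Def.Hecke

/-!
# P183K, defining characteristic, part 2: good vectors (helper2)

A vector `v` is good if it lies in the span of `B s B v` for all `s ∈ S`.
-/

set_option autoImplicit false
set_option linter.all false

namespace Vale.Agent.P183K.Def

open Subgroup Vale.Agent.P240.H195

open scoped Classical

universe u v w

section
variable {L : Type u} [Group L] {k : Type v} [Field k] {V : Type w} [AddCommGroup V] [Module k V]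

/-- the span of `B n B v` -/
def cell (ρ : Representation k L V) (B : Subgroup L) (n : L) (v : V) : Submodule k V :=
  Submodule.span k {x | ∃ g, DC B n g ∧ x = ρ g v}

/-- relative trace from `K` to `U` -/
noncomputable def Tr [Finite L] (ρ : Representation k L V) (U K : Subgroup L) : V →ₗ[k] V :=
  haveI : Fintype (U ⧸ K.subgroupOf U) := Fintype.ofFinite _
  ∑ c : U ⧸ K.subgroupOf U, ρ (c.out : U)

variable [Finite L] {ρ : Representation k L V} {U K : Subgroup L}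

lemma Tr_apply [Fintype (U ⧸ K.subgroupOf U)] (y : V) :
    Tr ρ U K y = ∑ c : U ⧸ K.subgroupOf U, ρ (c.out : U) y := by
  unfold Tr
  rw [LinearMap.sum_apply]
  exact Finset.sum_congr (by ext; simp) fun _ _ => rfl

lemma out_eqK (a : U) : ∃ z ∈ K, z ∈ U ∧ ((((a : U ⧸ K.subgroupOf U)).out : U) : L) = a * z := by
  obtain ⟨u, hu⟩ := QuotientGroup.mk_out_eq_mul (K.subgroupOf U) a
  exact ⟨(u : U), mem_subgroupOf.1 u.2, (u : U).2, by rw [hu]; rfl⟩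

lemma Tn_eq_Tr {g : L} (hK : ∀ x ∈ U, x ∈ K ↔ g⁻¹ * x * g ∈ U) {v : V} (hv : Fix ρ U v) :
    Tn ρ U g v = Tr ρ U K (ρ g v) := by
  haveI : Fintype (U ⧸ K.subgroupOf U) := Fintype.ofFinite _
  rw [Tr_apply]
  unfold Tn
  symm
  refine Finset.sum_bij (fun c _ => ((((c.out : U) : L) * g : L) : L ⧸ U)) ?_ ?_ ?_ ?_
  · intro c _
    exact mem_Orb.2 ⟨_, (c.out : U).2, rfl⟩
  · intro c _ c' _ hcc
    rw [QuotientGroup.eq] at hcc
    have e : (((c.out : U) : L) * g)⁻¹ * (((c'.out : U) : L) * g) =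
        g⁻¹ * ((c.out⁻¹ * c'.out : U) : L) * g := by
      rw [Subgroup.coe_mul, Subgroup.coe_inv]; group
    rw [e, ← hK _ (c.out⁻¹ * c'.out : U).2, ← mem_subgroupOf, ← QuotientGroup.eq,
      QuotientGroup.out_eq', QuotientGroup.out_eq'] at hcc
    exact hcc
  · intro q hq
    obtain ⟨u, hu, rfl⟩ := mem_Orb.1 hq
    refine ⟨((⟨u, hu⟩ : U) : U ⧸ K.subgroupOf U), Finset.mem_univ _, ?_⟩
    obtain ⟨z, hz, hzU, e⟩ := out_eqK (K := K) (⟨u, hu⟩ : U)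
    rw [e, QuotientGroup.eq]
    have : (u * z * g)⁻¹ * (u * g) = g⁻¹ * z⁻¹ * g := by group
    simp only
    rw [this]
    exact (hK _ (inv_mem hzU)).1 (inv_mem hz)
  · intro c _
    rw [rho_out hv, rho_mul]

lemma Tr_rho (hKn : ∀ u ∈ U, ∀ x ∈ K, u⁻¹ * x * u ∈ K) {y : V} (hy : Fix ρ K y) {a : L}
    (ha : a ∈ U) : Tr ρ U K (ρ a y) = Tr ρ U K y := by
  haveI : Fintype (U ⧸ K.subgroupOf U) := Fintype.ofFinite _
  rw [Tr_apply, Tr_apply]
  refine Finset.sum_bij (fun c _ => ((c.out * ⟨a, ha⟩ : U) : U ⧸ K.subgroupOf U)) ?_ ?_ ?_ ?_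
  · intro c _
    exact Finset.mem_univ _
  · intro c _ c' _ hcc
    rw [QuotientGroup.eq, mem_subgroupOf] at hcc
    have h1 := hKn a⁻¹ (inv_mem ha) _ hcc
    have e : a⁻¹⁻¹ * (((c.out * ⟨a, ha⟩)⁻¹ * (c'.out * ⟨a, ha⟩) : U) : L) * a⁻¹ =
        ((c.out⁻¹ * c'.out : U) : L) := by
      simp only [Subgroup.coe_mul, Subgroup.coe_inv]; group
    rw [e, ← mem_subgroupOf, ← QuotientGroup.eq, QuotientGroup.out_eq',
      QuotientGroup.out_eq'] at h1
    exact h1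
  · intro c _
    refine ⟨((c.out * (⟨a, ha⟩ : U)⁻¹ : U) : U ⧸ K.subgroupOf U), Finset.mem_univ _, ?_⟩
    obtain ⟨z, hz, hzU, e⟩ := out_eqK (K := K) (c.out * (⟨a, ha⟩ : U)⁻¹ : U)
    conv_rhs => rw [← QuotientGroup.out_eq' c]
    rw [QuotientGroup.eq, mem_subgroupOf]
    simp only [Subgroup.coe_mul, Subgroup.coe_inv] at e ⊢
    rw [e]
    have : (((c.out : U) : L) * a⁻¹ * z * a)⁻¹ * ((c.out : U) : L) = a⁻¹ * z⁻¹ * a := by group
    rw [this]
    exact hKn a ha _ (inv_mem hz)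
  · intro c _
    obtain ⟨z, hz, hzU, e⟩ := out_eqK (K := K) (c.out * (⟨a, ha⟩ : U) : U)
    rw [e, rho_mul, hy z hz, Subgroup.coe_mul, rho_mul]

lemma Tr_fix {p : ℕ} [hp : Fact p.Prime] [CharP k p] (hU : IsPGroup p U) (hne : ¬ U ≤ K) {y : V}
    (hy : Fix ρ U y) : Tr ρ U K y = 0 := by
  haveI : Fintype (U ⧸ K.subgroupOf U) := Fintype.ofFinite _
  rw [Tr_apply, Finset.sum_congr rfl fun c _ => hy _ (c.out : U).2, Finset.sum_const,
    Finset.card_univ, ← Nat.cast_smul_eq_nsmul k]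
  obtain ⟨m, hm⟩ := hU.index (K.subgroupOf U)
  have h1 : Fintype.card (U ⧸ K.subgroupOf U) = p ^ m := by
    rw [← hm, Subgroup.index, Nat.card_eq_fintype_card]
  have hm0 : m ≠ 0 := by
    rintro rfl
    rw [pow_zero, Subgroup.index_eq_one, subgroupOf_eq_top] at hm
    exact hne hm
  rw [h1, Nat.cast_pow, CharP.cast_eq_zero, zero_pow hm0, zero_smul]

variable {B N : Subgroup L} {S : Set L} {p : ℕ} [hp : Fact p.Prime] [CharP k p]
  (h : SB p B N U S)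
include h

lemma not_le_Kg {s : L} (hs : s ∈ S) : ¬ U ≤ Kg U s := by
  intro hle
  obtain ⟨x, hx, -, hxs⟩ := h.transit' hp.out (one_mem N) hs
    (BN0.rg_one h.toBN0 hs (one_mem _) (one_mem _))
  exact hxs (h.le ((mem_Kg_iff h hp.out hs hx).1 (hle hx)))

lemma mem_cell_of {s s' : L} (hs : s ∈ S) (hs' : DC B s s') {w : V}
    (hw : Fix ρ U w) {c : k} (hc : Tn ρ U s' w = c • w) : w ∈ cell ρ B s w := by
  have hs'P : s' ∈ Par B s := (h.mem_Par hs).2 (Or.inr hs')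
  by_cases hc0 : c = 0
  · rw [hc0, zero_smul] at hc
    have hmem : ((s' : L) : L ⧸ U) ∈ Orb U s' := mem_Orb.2 ⟨1, one_mem _, by rw [one_mul]⟩
    unfold Tn at hc
    rw [← Finset.add_sum_erase _ _ hmem, rho_out hw] at hc
    have h1 := congrArg (ρ s'⁻¹) hc
    rw [map_add, rho_inv_self, map_zero, map_sum, add_eq_zero_iff_eq_neg] at h1
    have h2 : -∑ x ∈ (Orb U s').erase (s' : L ⧸ U), ρ s'⁻¹ (ρ x.out w) ∈ cell ρ B s w := by
      refine neg_mem (Submodule.sum_mem _ fun q hq => ?_)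
      obtain ⟨hq1, hq2⟩ := Finset.mem_erase.1 hq
      obtain ⟨u, hu, rfl⟩ := mem_Orb.1 hq2
      rw [rho_out hw, ← rho_mul]
      refine Submodule.subset_span ⟨_, ?_, rfl⟩
      have hP : s'⁻¹ * (u * s') ∈ Par B s :=
        mul_mem (inv_mem hs'P) (mul_mem (le_Par (h.le hu)) hs'P)
      refine ((h.mem_Par hs).1 hP).resolve_left fun hB => hq1 ?_
      symm
      rw [QuotientGroup.eq]
      rw [← mul_assoc] at hB ⊢
      exact h.conj_U' hp.out hu hB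
    rwa [← h1] at h2
  · have h1 : w = c⁻¹ • Tn ρ U s' w := by rw [hc, smul_smul, inv_mul_cancel₀ hc0, one_smul]
    have h2 : c⁻¹ • Tn ρ U s' w ∈ cell ρ B s w := by
      refine Submodule.smul_mem _ _ (Submodule.sum_mem _ fun q hq => ?_)
      obtain ⟨u, hu, rfl⟩ := mem_Orb.1 hq
      rw [rho_out hw]
      exact Submodule.subset_span ⟨_, hs'.left (h.le hu), rfl⟩
    rwa [← h1] at h2

lemma dc_inv {s : L} (hs : s ∈ S) : DC B s s⁻¹ :=
  ⟨1, one_mem _, s⁻¹ * s⁻¹, h.inv_mul hs, by group⟩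

/-- the quadratic relation -/
lemma Tn_inv_Tn {s : L} (hs : s ∈ S) {v : V} (hv : Fix ρ U v) (he : Eig ρ B v) :
    ∃ c : k, Tn ρ U s⁻¹ (Tn ρ U s v) = c • Tn ρ U s v := by
  have hK1 : ∀ x ∈ U, x ∈ Kg U s ↔ s⁻¹ * x * s ∈ U := fun x hx => mem_Kg_iff h hp.out hs hx
  have hK2 : ∀ x ∈ U, x ∈ Kg U s ↔ s⁻¹⁻¹ * x * s⁻¹ ∈ U := fun x hx => by
    rw [inv_inv]
    exact ⟨fun h1 => h1.2, fun h1 => ⟨hx, h1⟩⟩
  have hKn : ∀ u ∈ U, ∀ x ∈ Kg U s, u⁻¹ * x * u ∈ Kg U s := fun u hu x hx =>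
    h.Kg_conj' hs (le_Par (h.le hu)) hx
  have hsv : Fix ρ (Kg U s) (ρ s v) := by
    intro x hx
    have e : x * s = s * (s⁻¹ * x * s) := by group
    rw [← rho_mul, e, rho_mul, hv _ ((hK1 x hx.1).1 hx)]
  have hmem : ((s : L) : L ⧸ U) ∈ Orb U s := mem_Orb.2 ⟨1, one_mem _, by rw [one_mul]⟩
  have h0 : Tn ρ U s v = Tr ρ U (Kg U s) (ρ s v) := Tn_eq_Tr hK1 hv
  suffices hh : Tn ρ U s⁻¹ (Tn ρ U s v) ∈ Submodule.span k {Tn ρ U s v} by
    obtain ⟨c, hc⟩ := Submodule.mem_span_singleton.1 hh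
    exact ⟨c, hc.symm⟩
  rw [Tn_eq_Tr hK2 (Tn_fix hv s)]
  have h1 : ρ s⁻¹ (Tn ρ U s v) = v + ∑ x ∈ (Orb U s).erase (s : L ⧸ U), ρ s⁻¹ (ρ x.out v) := by
    unfold Tn
    rw [← Finset.add_sum_erase _ _ hmem, rho_out hv, map_add, rho_inv_self, map_sum]
  rw [h1, map_add, Tr_fix h.pgroup (not_le_Kg h hs) hv, zero_add, map_sum]
  refine Submodule.sum_mem _ fun q hq => ?_
  obtain ⟨hq1, hq2⟩ := Finset.mem_erase.1 hq
  obtain ⟨u, hu, rfl⟩ := mem_Orb.1 hq2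
  have hP : s⁻¹ * (u * s) ∈ Par B s :=
    mul_mem (inv_mem self_mem_Par) (mul_mem (le_Par (h.le hu)) self_mem_Par)
  have hB : s⁻¹ * (u * s) ∉ B := by
    intro hB
    apply hq1
    symm
    rw [QuotientGroup.eq]
    rw [← mul_assoc] at hB ⊢
    exact h.conj_U' hp.out hu hB
  obtain ⟨a, ha, b, hb, e⟩ := h.coset_form hs hP hB
  obtain ⟨c, hc⟩ := he b hb
  rw [rho_out hv, ← rho_mul, e, rho_mul, hc, map_smul, map_smul, rho_mul, Tr_rho hKn hsv ha, ← h0]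
  exact Submodule.smul_mem _ _ (Submodule.mem_span_singleton_self _)

lemma len_inv {j : ℕ} {n : L} (hn : h.toBN0.Len j n) : h.toBN0.Len j n⁻¹ := by
  refine ⟨h.wd_inv hn.1, fun i hi hw => hn.2 i hi ?_⟩
  have := h.wd_inv hw
  rwa [inv_inv] at this

/-- **good vectors exist** (in the span of `L v₀`; in fact `v = T_n v₀`) -/
theorem exists_good {v₀ : V} (h0 : v₀ ≠ 0) (hv : Fix ρ U v₀) (he : Eig ρ B v₀) :
    ∃ n ∈ N, Tn ρ U n v₀ ≠ 0 ∧ ∀ s ∈ S, Tn ρ U n v₀ ∈ cell ρ B s (Tn ρ U n v₀) := by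
  have hlen : ∀ n : N, ∃ j, h.toBN0.Len j n := fun n => h.exists_len n.2
  choose len hlen using hlen
  obtain ⟨n, hn, hmax⟩ := Set.exists_max_image {n : N | Tn ρ U n v₀ ≠ 0} len (Set.toFinite _)
    ⟨1, by show Tn ρ U 1 v₀ ≠ 0; rwa [Tn_one hv]⟩
  refine ⟨n, n.2, hn, fun s hs => ?_⟩
  have hsN := h.sub s hs
  have hfix := Tn_fix hv (n : L)
  rcases h.rg_or (inv_mem n.2) hs with h1 | h1
  · have h2 := Tn_Tn h hp.out hv n.2 hs h1
    have h3 : h.toBN0.Len (len n + 1) (s * n) := by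
      have h4 := len_inv h (h.len_mul (len_inv h (hlen n)) hs h1)
      refine h.len_congr h4 (mul_mem hsN n.2) ?_
      have e : ((n : L)⁻¹ * s)⁻¹⁻¹ * (s * n) = (n : L)⁻¹ * (s * s) * n := by group
      rw [e]
      exact h.norm' n.2 (h.sq s hs) (mul_mem hsN hsN)
    have h5 : Tn ρ U (s * n) v₀ = 0 := by
      by_contra hne
      have h6 := hmax ⟨s * n, mul_mem hsN n.2⟩ hne
      have h7 := h.len_unique (hlen ⟨s * n, mul_mem hsN n.2⟩) h3
      omega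
    refine mem_cell_of h hs (DC.refl s) hfix (c := 0) ?_
    rw [h2, h5, zero_smul]
  · have hm : s⁻¹ * n ∈ N := mul_mem (inv_mem hsN) n.2
    have e : (s⁻¹ * (n : L))⁻¹ = (n : L)⁻¹ * s := by group
    have h2 := Tn_Tn h hp.out hv hm hs (by rw [e]; exact h1)
    rw [mul_inv_cancel_left] at h2
    obtain ⟨c, hc⟩ := Tn_inv_Tn h hs (Tn_fix hv (s⁻¹ * n)) (Tn_eig h hv he hm)
    rw [h2] at hc
    exact mem_cell_of h hs (dc_inv h hs) hfix hc

end

end Vale.Agent.P183K.Def
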