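import Vale.Agent.P240.H195.BNRad
import Vale.Agent.P179.H875.Perm1

/-!
# P183K, defining characteristic, part 1: the Hecke operators on `V^U` (helper2)

`L` is a finite group with a split BN-pair of characteristic `p`, `ρ` a representation over a field
of characteristic `p`.  `Tn ρ U g v` is the sum of the vectors `x v` over the cosets `x U ⊆ U g U`.
-/

set_option autoImplicit false
set_option linter.unusedSectionVars false

namespace Vale.Agent.P183K.Def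

open Subgroup Vale.Agent.P240.H195

open scoped Classical

universe u v w

section
variable {L : Type u} [Group L] {k : Type v} [Field k] {V : Type w} [AddCommGroup V] [Module k V]

/-- `v` is fixed by `U` -/
def Fix (ρ : Representation k L V) (U : Subgroup L) (v : V) : Prop := ∀ u ∈ U, ρ u v = v

/-- `v` is an eigenvector (or zero) for all elements of `B` -/
def Eig (ρ : Representation k L V) (B : Subgroup L) (v : V) : Prop := ∀ b ∈ B, ∃ c : k, ρ b v = c • v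

lemma rho_mul (ρ : Representation k L V) (g h : L) (v : V) : ρ (g * h) v = ρ g (ρ h v) := by
  rw [map_mul]; rfl

lemma rho_one (ρ : Representation k L V) (v : V) : ρ 1 v = v := by
  rw [map_one]; rfl

lemma rho_inv_self (ρ : Representation k L V) (g : L) (v : V) : ρ g⁻¹ (ρ g v) = v := by
  rw [← rho_mul, inv_mul_cancel, rho_one]

lemma rho_self_inv (ρ : Representation k L V) (g : L) (v : V) : ρ g (ρ g⁻¹ v) = v := by
  rw [← rho_mul, mul_inv_cancel, rho_one]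

lemma rho_ne_zero (ρ : Representation k L V) (g : L) {v : V} (hv : v ≠ 0) : ρ g v ≠ 0 := by
  intro h
  apply hv
  rw [← rho_inv_self ρ g v, h, map_zero]

lemma eig_ne_zero (ρ : Representation k L V) {g : L} {v : V} (hv : v ≠ 0) {c : k}
    (h : ρ g v = c • v) : c ≠ 0 := by
  rintro rfl
  rw [zero_smul] at h
  exact rho_ne_zero ρ g hv h

/-- the cosets in `U g U` -/
noncomputable def Orb [Finite L] (U : Subgroup L) (g : L) : Finset (L ⧸ U) :=
  (Set.toFinite {q : L ⧸ U | ∃ u ∈ U, q = ((u * g : L) : L ⧸ U)}).toFinset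

lemma mem_Orb [Finite L] {U : Subgroup L} {g : L} {q : L ⧸ U} :
    q ∈ Orb U g ↔ ∃ u ∈ U, q = ((u * g : L) : L ⧸ U) := by
  unfold Orb
  rw [Set.Finite.mem_toFinset]
  rfl

/-- the Hecke operator -/
noncomputable def Tn [Finite L] (ρ : Representation k L V) (U : Subgroup L) (g : L) (v : V) : V :=
  ∑ q ∈ Orb U g, ρ q.out v

variable {ρ : Representation k L V} {U : Subgroup L}

lemma out_eq (g : L) : ∃ u ∈ U, ((g : L ⧸ U)).out = g * u := by
  obtain ⟨u, hu⟩ := QuotientGroup.mk_out_eq_mul U g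
  exact ⟨u, u.2, hu⟩

lemma rho_out {v : V} (hv : Fix ρ U v) (g : L) : ρ ((g : L ⧸ U)).out v = ρ g v := by
  obtain ⟨u, hu, e⟩ := out_eq (U := U) g
  rw [e, rho_mul, hv u hu]

lemma rho_smul_out {v : V} (hv : Fix ρ U v) (g : L) (q : L ⧸ U) :
    ρ (g • q).out v = ρ g (ρ q.out v) := by
  have : g • q = ((g * q.out : L) : L ⧸ U) := by
    conv_lhs => rw [← QuotientGroup.out_eq' q]
    rfl
  rw [this, rho_out hv, rho_mul]

lemma smul_mk (g x : L) : g • ((x : L ⧸ U)) = ((g * x : L) : L ⧸ U) := rfl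

variable [Finite L]

lemma Tn_smul (g : L) (c : k) (v : V) : Tn ρ U g (c • v) = c • Tn ρ U g v := by
  unfold Tn
  rw [Finset.smul_sum]
  exact Finset.sum_congr rfl fun q _ => map_smul _ _ _

/-- left multiplication by an element normalising `U` -/
lemma rho_Tn {v : V} (hv : Fix ρ U v) {t : L} (h1 : ∀ u ∈ U, t * u * t⁻¹ ∈ U)
    (h2 : ∀ u ∈ U, t⁻¹ * u * t ∈ U) (g : L) : ρ t (Tn ρ U g v) = Tn ρ U (t * g) v := by
  unfold Tn
  rw [map_sum]
  refine Finset.sum_bij (fun q _ => t • q) ?_ ?_ ?_ ?_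
  · intro q hq
    obtain ⟨u, hu, rfl⟩ := mem_Orb.1 hq
    refine mem_Orb.2 ⟨t * u * t⁻¹, h1 u hu, ?_⟩
    rw [smul_mk]
    congr 1
    group
  · intro q _ q' _ h
    exact MulAction.injective t h
  · intro q hq
    obtain ⟨u, hu, rfl⟩ := mem_Orb.1 hq
    refine ⟨((t⁻¹ * u * t * g : L) : L ⧸ U), mem_Orb.2 ⟨_, h2 u hu, rfl⟩, ?_⟩
    rw [smul_mk]
    congr 1
    group
  · intro q _
    rw [rho_smul_out hv]

lemma Orb_left {u : L} (hu : u ∈ U) (g : L) : Orb U (u * g) = Orb U g := by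
  ext q
  rw [mem_Orb, mem_Orb]
  constructor
  · rintro ⟨a, ha, rfl⟩
    exact ⟨a * u, mul_mem ha hu, by rw [mul_assoc]⟩
  · rintro ⟨a, ha, rfl⟩
    refine ⟨a * u⁻¹, mul_mem ha (inv_mem hu), ?_⟩
    congr 1
    group

lemma Tn_fix {v : V} (hv : Fix ρ U v) (g : L) : Fix ρ U (Tn ρ U g v) := by
  intro u hu
  rw [rho_Tn hv (fun x hx => mul_mem (mul_mem hu hx) (inv_mem hu))
    (fun x hx => mul_mem (mul_mem (inv_mem hu) hx) hu)]
  unfold Tn
  rw [Orb_left hu]

lemma fix_rho {v : V} (hv : Fix ρ U v) {t : L} (h2 : ∀ u ∈ U, t⁻¹ * u * t ∈ U) :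
    Fix ρ U (ρ t v) := by
  intro u hu
  have e : u * t = t * (t⁻¹ * u * t) := by group
  rw [← rho_mul, e, rho_mul, hv _ (h2 u hu)]

/-- right multiplication by an element normalising `U` -/
lemma Tn_mul {v : V} (hv : Fix ρ U v) {t : L} (h1 : ∀ u ∈ U, t * u * t⁻¹ ∈ U)
    (h2 : ∀ u ∈ U, t⁻¹ * u * t ∈ U) (g : L) : Tn ρ U (g * t) v = Tn ρ U g (ρ t v) := by
  have hv' := fix_rho hv h2
  unfold Tn
  symm
  refine Finset.sum_bij (fun q _ => ((q.out * t : L) : L ⧸ U)) ?_ ?_ ?_ ?_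
  · intro q hq
    obtain ⟨u, hu, rfl⟩ := mem_Orb.1 hq
    obtain ⟨a, ha, e⟩ := out_eq (U := U) (u * g)
    refine mem_Orb.2 ⟨u, hu, ?_⟩
    rw [e, QuotientGroup.eq]
    have : (u * g * a * t)⁻¹ * (u * (g * t)) = t⁻¹ * a⁻¹ * t := by group
    rw [this]
    exact h2 _ (inv_mem ha)
  · intro q _ q' _ h
    rw [QuotientGroup.eq] at h
    have h3 := h1 _ h
    have : t * ((q.out * t)⁻¹ * (q'.out * t)) * t⁻¹ = q.out⁻¹ * q'.out := by group
    rw [this, ← QuotientGroup.eq, QuotientGroup.out_eq', QuotientGroup.out_eq'] at h3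
    exact h3
  · intro q hq
    obtain ⟨u, hu, rfl⟩ := mem_Orb.1 hq
    refine ⟨((u * g : L) : L ⧸ U), mem_Orb.2 ⟨u, hu, rfl⟩, ?_⟩
    obtain ⟨a, ha, e⟩ := out_eq (U := U) (u * g)
    rw [e, QuotientGroup.eq]
    have : (u * g * a * t)⁻¹ * (u * (g * t)) = t⁻¹ * a⁻¹ * t := by group
    rw [this]
    exact h2 _ (inv_mem ha)
  · intro q _
    rw [rho_out hv, rho_mul]

lemma Tn_one {v : V} (hv : Fix ρ U v) : Tn ρ U 1 v = v := by
  unfold Tn
  have : Orb U (1 : L) = {((1 : L) : L ⧸ U)} := by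
    ext q
    rw [mem_Orb, Finset.mem_singleton]
    constructor
    · rintro ⟨u, hu, rfl⟩
      rw [QuotientGroup.eq]
      simpa using hu
    · rintro rfl
      exact ⟨1, one_mem _, by rw [mul_one]⟩
  rw [this, Finset.sum_singleton, rho_out hv, rho_one]

variable {B N : Subgroup L} {S : Set L} {p : ℕ}

section
variable (h : SB p B N U S) (hp : p.Prime)
include h

lemma Tn_eig {v : V} (hv : Fix ρ U v) (he : Eig ρ B v) {n : L} (hn : n ∈ N) :
    Eig ρ B (Tn ρ U n v) := by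
  intro b hb
  obtain ⟨u, hu, t, htB, htN, rfl⟩ := h.split b hb
  obtain ⟨c, hc⟩ := he _ (h.norm' hn htB htN)
  refine ⟨c, ?_⟩
  have e : t * n = n * (n⁻¹ * t * n) := by group
  have ht' := h.norm' hn htB htN
  rw [rho_mul, rho_Tn hv (h.normal t htB) (fun x hx => h.norm_U' htB hx), e,
    Tn_mul hv (h.normal _ ht') (fun x hx => h.norm_U' ht' hx), hc, Tn_smul, map_smul,
    Tn_fix hv _ u hu]

include hp

lemma mem_Kg_iff {s x : L} (hs : s ∈ S) (hx : x ∈ U) : x ∈ Kg U s ↔ s⁻¹ * x * s ∈ U := by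
  constructor
  · intro h1
    exact (h.Kg_conj' hs self_mem_Par h1).1
  · intro h1
    refine mem_Kg.2 ⟨hx, ?_⟩
    have := h.normal _ (h.sq s hs) _ h1
    have e : s * s * (s⁻¹ * x * s) * (s * s)⁻¹ = s * x * s⁻¹ := by group
    rwa [e] at this

/-- `U = K_s (U ∩ U^n)` if `n s` is longer than `n` -/
lemma fact_right {n s u : L} (hn : n ∈ N) (hs : s ∈ S) (hrg : RG B n s) (hu : u ∈ U) :
    ∃ x ∈ U, n * x * n⁻¹ ∈ U ∧ x⁻¹ * u ∈ Kg U s := by
  obtain ⟨x, hx, hnx, hxb⟩ := h.transit hp hn hs (h.le hu) hrg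
  refine ⟨x, hx, hnx, (mem_Kg_iff h hp hs (mul_mem (inv_mem hx) hu)).2 ?_⟩
  refine h.conj_U' hp (mul_mem (inv_mem hx) hu) ?_
  have e : (x * s)⁻¹ * (u * s) = s⁻¹ * (x⁻¹ * u) * s := by group
  rwa [e] at hxb

lemma mul_left_form {n s u : L} (hn : n ∈ N) (hs : s ∈ S) (hrg : RG B n⁻¹ s) (hu : u ∈ U) :
    ∃ a ∈ U, ∃ b ∈ U, s * u * n = a * (s * n) * b := by
  obtain ⟨x, hx, hnx, hxu⟩ := fact_right h hp (inv_mem hn) hs hrg (inv_mem hu)
  rw [inv_inv] at hnx
  have h1 : (x⁻¹ * u⁻¹)⁻¹ ∈ Kg U s := inv_mem hxu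
  refine ⟨s * (x⁻¹ * u⁻¹)⁻¹ * s⁻¹, h1.2, (n⁻¹ * x * n)⁻¹, inv_mem hnx, ?_⟩
  group

/-- the product formula -/
theorem Tn_Tn {v : V} (hv : Fix ρ U v) {n s : L} (hn : n ∈ N) (hs : s ∈ S)
    (hrg : RG B n⁻¹ s) : Tn ρ U s (Tn ρ U n v) = Tn ρ U (s * n) v := by
  have hsN := h.sub s hs
  have e1 : Tn ρ U s (Tn ρ U n v) =
      ∑ x ∈ Orb U s ×ˢ Orb U n, ρ (x.1.out • x.2).out v := by
    rw [Finset.sum_product]
    unfold Tn
    refine Finset.sum_congr rfl fun q _ => ?_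
    rw [map_sum]
    exact Finset.sum_congr rfl fun q' _ => (rho_smul_out hv _ _).symm
  rw [e1]
  unfold Tn
  refine Finset.sum_bij (fun x _ => x.1.out • x.2) ?_ ?_ ?_ fun _ _ => rfl
  · rintro ⟨q1, q2⟩ hx
    obtain ⟨h1, h2⟩ := Finset.mem_product.1 hx
    obtain ⟨u, hu, rfl⟩ := mem_Orb.1 h1
    obtain ⟨u2, hu2, rfl⟩ := mem_Orb.1 h2
    obtain ⟨a, ha, e⟩ := out_eq (U := U) (u * s)
    obtain ⟨c, hc, d, hd, e2⟩ := mul_left_form h hp hn hs hrg (mul_mem ha hu2)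
    refine mem_Orb.2 ⟨u * c, mul_mem hu hc, ?_⟩
    simp only
    rw [e, smul_mk, QuotientGroup.eq]
    have : u * s * a * (u2 * n) = u * (s * (a * u2) * n) := by group
    rw [this, e2]
    have : (u * (c * (s * n) * d))⁻¹ * (u * c * (s * n)) = d⁻¹ := by group
    rw [this]
    exact inv_mem hd
  · rintro ⟨q1, q2⟩ hx ⟨q1', q2'⟩ hx' heq
    obtain ⟨h1, h2⟩ := Finset.mem_product.1 hx
    obtain ⟨h1', h2'⟩ := Finset.mem_product.1 hx'
    simp only at heq h1 h2 h1' h2'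
    have key : q1 = q1' := by
      obtain ⟨u, hu, rfl⟩ := mem_Orb.1 h1
      obtain ⟨u2, hu2, rfl⟩ := mem_Orb.1 h2
      obtain ⟨u', hu', rfl⟩ := mem_Orb.1 h1'
      obtain ⟨u2', hu2', rfl⟩ := mem_Orb.1 h2'
      obtain ⟨a, ha, e⟩ := out_eq (U := U) (u * s)
      obtain ⟨a', ha', e'⟩ := out_eq (U := U) (u' * s)
      rw [e, e', smul_mk, smul_mk, QuotientGroup.eq] at heq
      by_cases hB : s⁻¹ * (u⁻¹ * u') * s ∈ B
      · rw [QuotientGroup.eq]
        have : (u * s)⁻¹ * (u' * s) = s⁻¹ * (u⁻¹ * u') * s := by group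
        rw [this]
        exact h.conj_U' hp (mul_mem (inv_mem hu) hu') hB
      · exfalso
        have hP : s⁻¹ * (u⁻¹ * u') * s ∈ Par B s :=
          mul_mem (mul_mem (inv_mem self_mem_Par) (le_Par (h.le (mul_mem (inv_mem hu) hu'))))
            self_mem_Par
        obtain ⟨c, hc, d, hd, hcd⟩ := ((h.mem_Par hs).1 hP).resolve_left hB
        have h3 : DC B (s * n) (s * (d * a' * u2') * n) :=
          h.rg_inv hs hrg (mul_mem (mul_mem hd (h.le ha')) (h.le hu2'))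
        have h4 : DC B n (s * (d * a' * u2') * n) := by
          refine ⟨c⁻¹ * a * u2, mul_mem (mul_mem (inv_mem hc) (h.le ha)) (h.le hu2), _,
            h.le heq, ?_⟩
          have e3 : s * d = c⁻¹ * (s⁻¹ * (u⁻¹ * u') * s) := by rw [hcd]; group
          calc s * (d * a' * u2') * n = (s * d) * (a' * u2' * n) := by group
            _ = _ := by rw [e3]; group
        have h5 := h.inj hn (mul_mem hsN hn) (h4.trans h3.symm)
        have h6 := h.norm n hn _ h5 (mul_mem (inv_mem hn) (mul_mem hsN hn))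
        have e4 : n * (n⁻¹ * (s * n)) * n⁻¹ = s := by group
        rw [e4] at h6
        exact h.not_mem hs h6
    subst key
    rw [MulAction.injective _ heq]
  · intro q hq
    obtain ⟨u, hu, rfl⟩ := mem_Orb.1 hq
    obtain ⟨a, ha, e⟩ := out_eq (U := U) (u * s)
    refine ⟨(((u * s : L) : L ⧸ U), ((a⁻¹ * n : L) : L ⧸ U)), Finset.mem_product.2
      ⟨mem_Orb.2 ⟨u, hu, rfl⟩, mem_Orb.2 ⟨a⁻¹, inv_mem ha, rfl⟩⟩, ?_⟩
    simp only
    rw [e, smul_mk]
    congr 1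
    group

end

end

end Vale.Agent.P183K.Def
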